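import Crest.Agent.Lib.PolyTime.Typed

/-!
Binary arithmetic: `Bin` (naturals in binary) and `ℤ` (sign bit, then the binary digits of the
absolute value, least significant first).
-/

set_option autoImplicit false

namespace Crest.Agent.Lib.PolyTime

open Function

/-- A natural number presented in binary. -/
structure Bin where
  /-- the value -/
  val : ℕ

instance : Enc Bin := ⟨fun b => b.val.bits⟩
instance : Enc ℤ := ⟨fun z => decide (z < 0) :: z.natAbs.bits⟩

theorem enc_bin (b : Bin) : enc b = b.val.bits := rfl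
theorem enc_int (z : ℤ) : enc z = decide (z < 0) :: z.natAbs.bits := rfl

@[simp] theorem size_bin (b : Bin) : size b = b.val.size := Nat.size_eq_bits_len _
theorem size_int (z : ℤ) : size z = z.natAbs.size + 1 := by
  simp [size, enc_int, Nat.size_eq_bits_len]

theorem natSize_le_self (n : ℕ) : n.size ≤ n := Nat.size_le.2 Nat.lt_two_pow_self

theorem natSize_mul_le (a b : ℕ) : (a * b).size ≤ a.size + b.size := by
  rw [Nat.size_le, pow_add]
  exact Nat.mul_lt_mul'' (Nat.lt_size_self a) (Nat.lt_size_self b)

theorem natSize_add_le (a b : ℕ) : (a + b).size ≤ a.size + b.size := by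
  rcases Nat.eq_zero_or_pos a with rfl | ha
  · simp
  rcases Nat.eq_zero_or_pos b with rfl | hb
  · simp
  rw [Nat.size_le, pow_add]
  have h₁ := Nat.lt_size_self a
  have h₂ := Nat.lt_size_self b
  nlinarith

theorem size_int_add_le (a b : ℤ) : size (a + b) ≤ size a + size b := by
  simp only [size_int]
  have := Nat.size_le_size (Int.natAbs_add_le a b)
  have := natSize_add_le a.natAbs b.natAbs
  omega

theorem size_int_mul_le (a b : ℤ) : size (a * b) ≤ size a + size b := by
  simp only [size_int, Int.natAbs_mul]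
  have := natSize_mul_le a.natAbs b.natAbs
  omega

theorem size_int_le_of_natAbs_le {a b : ℤ} (h : a.natAbs ≤ b.natAbs) : size a ≤ size b := by
  simp only [size_int]
  have := Nat.size_le_size h
  omega

namespace Bin

/-- Append a low bit. -/
def bit (d : Bool) (a : Bin) : Bin := ⟨Nat.bit d a.val⟩
/-- Halve. -/
def half (a : Bin) : Bin := ⟨a.val.div2⟩
/-- Parity. -/
def odd (a : Bin) : Bool := a.val.bodd
/-- Zero test. -/
def isZero (a : Bin) : Bool := decide (a.val = 0)
/-- Digits. -/
def bits (a : Bin) : List Bool := a.val.bits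
/-- Sum. -/
def add (a b : Bin) : Bin := ⟨a.val + b.val⟩
/-- Truncated difference. -/
def sub (a b : Bin) : Bin := ⟨a.val - b.val⟩
/-- Comparison. -/
def lt (a b : Bin) : Bool := decide (a.val < b.val)
/-- Product. -/
def mul (a b : Bin) : Bin := ⟨a.val * b.val⟩
/-- Quotient. -/
def div (a b : Bin) : Bin := ⟨a.val / b.val⟩
/-- Remainder. -/
def mod (a b : Bin) : Bin := ⟨a.val % b.val⟩
/-- Value of a list of digits, most significant first, continuing from `r`. -/
def ofMSB (r : Bin) (l : List Bool) : Bin := l.foldl (fun r d => bit d r) r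

/-- Value of a list of digits, most significant first. -/
def valMSB : List Bool → ℕ
  | [] => 0
  | d :: l => d.toNat * 2 ^ l.length + valMSB l

theorem valMSB_lt (l : List Bool) : valMSB l < 2 ^ l.length := by
  induction l with
  | nil => simp [valMSB]
  | cons d l ih => cases d <;> simp [valMSB, pow_succ] <;> omega

theorem ofMSB_val (l : List Bool) (r : Bin) :
    (ofMSB r l).val = r.val * 2 ^ l.length + valMSB l := by
  induction l generalizing r with
  | nil => simp [ofMSB, valMSB]
  | cons d l ih =>
    have := ih (bit d r)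
    simp only [ofMSB, List.foldl_cons] at this ⊢
    rw [this]
    simp only [bit, Nat.bit_val, valMSB, List.length_cons, pow_succ]
    ring

theorem valMSB_append_single (l : List Bool) (d : Bool) :
    valMSB (l ++ [d]) = 2 * valMSB l + d.toNat := by
  induction l with
  | nil => simp [valMSB]
  | cons e l ih => simp only [List.cons_append, valMSB, ih, List.length_append,
      List.length_singleton, pow_succ]; ring

theorem valMSB_bits_reverse (n : ℕ) : valMSB n.bits.reverse = n := by
  induction n using Nat.binaryRec' with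
  | zero => simp [valMSB]
  | bit b n h ih =>
    rw [Nat.bits_append_bit n b h, List.reverse_cons, valMSB_append_single, ih, Nat.bit_val]

theorem valMSB_append (l l' : List Bool) :
    valMSB (l ++ l') = valMSB l * 2 ^ l'.length + valMSB l' := by
  induction l with
  | nil => simp [valMSB]
  | cons e l ih => simp only [List.cons_append, valMSB, ih, List.length_append, pow_add]; ring

theorem valMSB_take_le (l : List Bool) (i : ℕ) : valMSB (l.take i) ≤ valMSB l := by
  conv_rhs => rw [← List.take_append_drop i l, valMSB_append]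
  have : 0 < 2 ^ (l.drop i).length := by positivity
  nlinarith

/-- One step of a bit-serial operation. -/
def serStep (φ : Bool → Bool → Bool → Bool × Bool) (p : Bin × Bin × Bool × List Bool) :
    Bin × Bin × Bool × List Bool :=
  (p.1.half, p.2.1.half, (φ p.1.odd p.2.1.odd p.2.2.1).1,
    (φ p.1.odd p.2.1.odd p.2.2.1).2 :: p.2.2.2)

theorem serStep_iterate (φ : Bool → Bool → Bool → Bool × Bool) (ε : ℤ)
    (hφ : ∀ x y c, (x.toNat : ℤ) + ε * y.toNat + ε * c.toNat =
      (φ x y c).2.toNat + 2 * ε * (φ x y c).1.toNat) (a b : ℕ) (i : ℕ) :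
    ∃ c acc, (serStep φ)^[i] (⟨a⟩, ⟨b⟩, false, []) = (⟨a / 2 ^ i⟩, ⟨b / 2 ^ i⟩, c, acc) ∧
      acc.length = i ∧ (valMSB acc : ℤ) + 2 ^ i * ((a / 2 ^ i : ℕ) + ε * (b / 2 ^ i : ℕ) +
        ε * c.toNat) = a + ε * b := by
  induction i with
  | zero => exact ⟨false, [], by simp, rfl, by simp [valMSB]⟩
  | succ i ih =>
    obtain ⟨c, acc, h₁, h₂, h₃⟩ := ih
    refine ⟨(φ (a / 2 ^ i).bodd (b / 2 ^ i).bodd c).1,
      (φ (a / 2 ^ i).bodd (b / 2 ^ i).bodd c).2 :: acc, ?_, by simp [h₂], ?_⟩
    · rw [iterate_succ_apply', h₁]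
      simp [serStep, half, odd, Nat.div2_val, Nat.div_div_eq_div_mul, pow_succ]
    · have ha := Nat.bodd_add_div2 (a / 2 ^ i)
      have hb := Nat.bodd_add_div2 (b / 2 ^ i)
      rw [Nat.div2_val, Nat.div_div_eq_div_mul, ← pow_succ] at ha hb
      have hc := hφ (a / 2 ^ i).bodd (b / 2 ^ i).bodd c
      have ha' : ((a / 2 ^ i).bodd.toNat : ℤ) + 2 * ((a / 2 ^ (i + 1) : ℕ) : ℤ) =
        ((a / 2 ^ i : ℕ) : ℤ) := by exact_mod_cast ha
      have hb' : ((b / 2 ^ i).bodd.toNat : ℤ) + 2 * ((b / 2 ^ (i + 1) : ℕ) : ℤ) =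
        ((b / 2 ^ i : ℕ) : ℤ) := by exact_mod_cast hb
      simp only [valMSB, h₂]
      generalize (a / 2 ^ (i + 1) : ℕ) = a₁ at *
      generalize (b / 2 ^ (i + 1) : ℕ) = b₁ at *
      generalize (a / 2 ^ i : ℕ) = a₀ at *
      generalize (b / 2 ^ i : ℕ) = b₀ at *
      push_cast
      rw [pow_succ]
      linear_combination (-(2 : ℤ) ^ i) * hc + h₃ + (2 : ℤ) ^ i * ha' + ε * 2 ^ i * hb'

/-- The result (carry, digits) of a bit-serial operation. -/
def serial (φ : Bool → Bool → Bool → Bool × Bool) (a b : Bin) : Bool × List Bool :=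
  ((serStep φ)^[size a + size b] (a, b, false, [])).2.2

theorem serial_spec (φ : Bool → Bool → Bool → Bool × Bool) (ε : ℤ)
    (hφ : ∀ x y c, (x.toNat : ℤ) + ε * y.toNat + ε * c.toNat =
      (φ x y c).2.toNat + 2 * ε * (φ x y c).1.toNat) (a b : Bin) :
    (valMSB (serial φ a b).2 : ℤ) + 2 ^ (serial φ a b).2.length * (ε * (serial φ a b).1.toNat) =
      a.val + ε * b.val := by
  obtain ⟨c, acc, h₁, h₂, h₃⟩ := serStep_iterate φ ε hφ a.val b.val (size a + size b)
  have ha : a.val / 2 ^ (size a + size b) = 0 :=
    Nat.div_eq_of_lt (Nat.size_le.1 (by simp))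
  have hb : b.val / 2 ^ (size a + size b) = 0 :=
    Nat.div_eq_of_lt (Nat.size_le.1 (by simp))
  unfold serial
  rw [show (a, b, false, ([] : List Bool)) = (⟨a.val⟩, ⟨b.val⟩, false, []) from rfl, h₁]
  rw [ha, hb] at h₃
  simpa [h₂] using h₃

/-- Full adder. -/
def addφ (x y c : Bool) : Bool × Bool := ((x && y) || (x && c) || (y && c), x ^^ y ^^ c)
/-- Full subtractor. -/
def subφ (x y c : Bool) : Bool × Bool := ((!x && y) || (!x && c) || (y && c), x ^^ y ^^ c)

theorem add_eq (a b : Bin) :
    ofMSB (bit (serial addφ a b).1 ⟨0⟩) (serial addφ a b).2 = add a b := by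
  have h := serial_spec addφ 1 (by decide) a b
  have : (ofMSB (bit (serial addφ a b).1 ⟨0⟩) (serial addφ a b).2).val = a.val + b.val := by
    rw [ofMSB_val]
    simp only [bit, Nat.bit_val]
    zify
    linear_combination h
  exact congrArg Bin.mk this

theorem lt_eq (a b : Bin) : (serial subφ a b).1 = lt a b := by
  have h := serial_spec subφ (-1) (by decide) a b
  have h₂ : (valMSB (serial subφ a b).2 : ℤ) < 2 ^ (serial subφ a b).2.length := by
    exact_mod_cast valMSB_lt (serial subφ a b).2
  unfold lt
  cases hc : (serial subφ a b).1 with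
  | false =>
    rw [hc] at h; simp at h
    symm; simp only [decide_eq_false_iff_not]; omega
  | true =>
    rw [hc] at h; simp at h
    symm; simp only [decide_eq_true_eq]; omega

theorem sub_eq (a b : Bin) :
    (bif lt a b then ⟨0⟩ else ofMSB ⟨0⟩ (serial subφ a b).2) = sub a b := by
  have h := serial_spec subφ (-1) (by decide) a b
  rw [lt_eq] at h
  unfold lt at h ⊢
  by_cases hl : a.val < b.val
  · simp only [hl, decide_true, cond_true, sub]; congr 1; omega
  · simp only [hl, decide_false, cond_false, sub] at h ⊢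
    have : (ofMSB ⟨0⟩ (serial subφ a b).2).val = a.val - b.val := by
      rw [ofMSB_val]; simp at h ⊢; omega
    exact congrArg Bin.mk this

theorem mul_fold (b : Bin) (l : List Bool) (r : ℕ) :
    l.foldl (fun (s : Bin) d => bif d then add (bit false s) b else bit false s) ⟨r * b.val⟩ =
      ⟨(r * 2 ^ l.length + valMSB l) * b.val⟩ := by
  induction l generalizing r with
  | nil => simp [valMSB]
  | cons d l ih =>
    have e : (bif d then add (bit false ⟨r * b.val⟩) b else bit false ⟨r * b.val⟩ : Bin) =
        ⟨(2 * r + d.toNat) * b.val⟩ := by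
      cases d <;> simp [add, bit, Nat.bit_val] <;> ring
    rw [List.foldl_cons, e, ih]
    simp only [valMSB, List.length_cons, pow_succ]
    congr 1; ring

/-- One step of long division. -/
def divStep (b : Bin) (s : Bin × Bin) (d : Bool) : Bin × Bin :=
  bif lt (bit d s.2) b then (bit false s.1, bit d s.2) else (bit true s.1, sub (bit d s.2) b)

theorem div_fold (b : Bin) (hb : 0 < b.val) (l : List Bool) (r : ℕ) :
    l.foldl (divStep b) (⟨r / b.val⟩, ⟨r % b.val⟩) =
      (⟨(r * 2 ^ l.length + valMSB l) / b.val⟩, ⟨(r * 2 ^ l.length + valMSB l) % b.val⟩) := by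
  induction l generalizing r with
  | nil => simp [valMSB]
  | cons d l ih =>
    have e : divStep b (⟨r / b.val⟩, ⟨r % b.val⟩) d =
        (⟨(2 * r + d.toNat) / b.val⟩, ⟨(2 * r + d.toNat) % b.val⟩) := by
      have h₁ := Nat.div_add_mod r b.val
      have h₂ := Nat.mod_lt r hb
      have h₃ : d.toNat ≤ 1 := by cases d <;> simp
      unfold divStep lt
      simp only [bit, Nat.bit_val, sub]
      by_cases h : 2 * (r % b.val) + d.toNat < b.val
      · have := (Nat.div_mod_unique (a := 2 * r + d.toNat) (c := 2 * (r % b.val) + d.toNat)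
          (d := 2 * (r / b.val)) hb).2 ⟨by nlinarith, h⟩
        simp [h, this.1, this.2]
      · have := (Nat.div_mod_unique (a := 2 * r + d.toNat)
          (c := 2 * (r % b.val) + d.toNat - b.val) (d := 2 * (r / b.val) + 1) hb).2
          ⟨by have : b.val * (2 * (r / b.val) + 1) = 2 * (b.val * (r / b.val)) + b.val := by ring
              omega, by omega⟩
        simp [h, this.1, this.2]
    rw [List.foldl_cons, e, ih]
    have : (2 * r + d.toNat) * 2 ^ l.length + valMSB l =
        r * 2 ^ (d :: l).length + valMSB (d :: l) := by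
      simp only [valMSB, List.length_cons, pow_succ]; ring
    rw [this]

end Bin

namespace PT

variable {α β : Type} [Enc α] [Enc β]

open Bin

@[fun_prop] theorem bin_isZero {f : α → Bin} (hf : PT f) : PT fun a => (f a).isZero :=
  (rawHead Option.isNone hf.toRaw).of_eq fun a => by
    simp only [enc_bin, isZero]
    rcases Nat.eq_zero_or_pos (f a).val with h | h
    · simp [h]
    · have h₁ : 0 < (f a).val.bits.length := by rw [Nat.size_eq_bits_len]; exact Nat.size_pos.2 h
      rcases h₂ : (f a).val.bits with _ | ⟨d, l⟩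
      · simp [h₂] at h₁
      · simp; omega

@[fun_prop] theorem bin_half {f : α → Bin} (hf : PT f) : PT fun a => (f a).half :=
  (rawTail hf.toRaw).of_enc fun a => by simp [enc_bin, half, Nat.div2_bits_eq_tail]

@[fun_prop] theorem bin_odd {f : α → Bin} (hf : PT f) : PT fun a => (f a).odd :=
  (rawHead (·.getD false) hf.toRaw).of_eq fun a => by
    simp only [enc_bin, odd, Nat.bodd_eq_bits_head]
    cases (f a).val.bits <;> rfl

@[fun_prop] theorem bin_bit {d : α → Bool} {f : α → Bin} (hd : PT d) (hf : PT f) :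
    PT fun a => Bin.bit (d a) (f a) :=
  (cond (hf.bin_isZero.and hd.not) (const (Raw.mk [])) (rawCons hd hf.toRaw)).of_enc fun a => by
    simp only [enc_bin, Bin.bit, isZero]
    by_cases h : (f a).val = 0 → d a = true
    · rw [Nat.bits_append_bit _ _ h]
      have : (decide ((f a).val = 0) && !d a) = false := by
        by_cases h0 : (f a).val = 0 <;> simp_all
      simp [this]
    · push Not at h
      simp [h.1, h.2]

@[fun_prop] theorem bin_bits {f : α → Bin} (hf : PT f) : PT fun a => (f a).bits := hf.encBits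

theorem natSize_bit_le (d : Bool) (n : ℕ) : (Nat.bit d n).size ≤ n.size + 1 := by
  by_cases h : Nat.bit d n = 0
  · simp [h]
  · rw [Nat.size_bit h]

@[fun_prop] theorem bin_ofMSB {r : α → Bin} {l : α → List Bool} (hr : PT r) (hl : PT l) :
    PT fun a => ofMSB (r a) (l a) :=
  foldl_growth (f := fun _ (r : Bin) d => Bin.bit d r) (by fun_prop) hl hr (G := fun _ => 1)
    (PB.const 1) (by intro a s b; simpa [Bin.bit] using natSize_bit_le b s.val)

theorem bin_serial (φ : Bool → Bool → Bool → Bool × Bool) (ε : ℤ)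
    (hφ : ∀ x y c, (x.toNat : ℤ) + ε * y.toNat + ε * c.toNat =
      (φ x y c).2.toNat + 2 * ε * (φ x y c).1.toNat)
    {f g : α → Bin} (hf : PT f) (hg : PT g) : PT fun a => serial φ (f a) (g a) := by
  have hφ' : PT fun p : Bool × Bool × Bool => φ p.1 p.2.1 p.2.2 :=
    (cond (fst id') (cond (fst (snd id')) (ofBool (φ true true) (snd (snd id')))
      (ofBool (φ true false) (snd (snd id')))) (cond (fst (snd id'))
      (ofBool (φ false true) (snd (snd id'))) (ofBool (φ false false) (snd (snd id'))))).of_eq
      fun p => by rcases p with ⟨_ | _, _ | _, _⟩ <;> rfl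
  have h₁ : PT fun p : Bin × Bin × Bool × List Bool => φ p.1.odd p.2.1.odd p.2.2.1 :=
    hφ'.comp (g := fun p : Bin × Bin × Bool × List Bool => (p.1.odd, p.2.1.odd, p.2.2.1))
      (by fun_prop)
  have h₂ : PT (serStep φ) := by unfold serStep; fun_prop
  refine (iterate (step := fun _ => serStep φ) (h₂.comp (snd id'))
    (n := fun a => size (f a) + size (g a)) (s₀ := fun a => (f a, g a, false, []))
    (by fun_prop) (by fun_prop) (B := fun a => 5 * size (f a) + 5 * size (g a) + 5)
    (by fun_prop) ?_).snd.snd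
  intro a i hi
  obtain ⟨c, acc, h₁, h₂, -⟩ := serStep_iterate φ ε hφ (f a).val (g a).val i
  rw [show (f a, g a, false, ([] : List Bool)) = (⟨(f a).val⟩, ⟨(g a).val⟩, false, []) from rfl, h₁]
  have := Nat.size_le_size (Nat.div_le_self (f a).val (2 ^ i))
  have := Nat.size_le_size (Nat.div_le_self (g a).val (2 ^ i))
  simp [size_list_bool, h₂] at hi ⊢
  omega

@[fun_prop] theorem bin_add {f g : α → Bin} (hf : PT f) (hg : PT g) :
    PT fun a => Bin.add (f a) (g a) := by
  have h := bin_serial addφ 1 (by decide) hf hg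
  exact (bin_ofMSB (bin_bit h.fst (const ⟨0⟩)) h.snd).of_eq fun a => add_eq _ _

@[fun_prop] theorem bin_lt {f g : α → Bin} (hf : PT f) (hg : PT g) :
    PT fun a => Bin.lt (f a) (g a) :=
  (bin_serial subφ (-1) (by decide) hf hg).fst.of_eq fun a => lt_eq _ _

@[fun_prop] theorem bin_sub {f g : α → Bin} (hf : PT f) (hg : PT g) :
    PT fun a => Bin.sub (f a) (g a) :=
  (cond (bin_lt hf hg) (const ⟨0⟩)
    (bin_ofMSB (const ⟨0⟩) (bin_serial subφ (-1) (by decide) hf hg).snd)).of_eq fun a => sub_eq _ _

@[fun_prop] theorem bin_mul {f g : α → Bin} (hf : PT f) (hg : PT g) :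
    PT fun a => Bin.mul (f a) (g a) :=
  (foldl (f := fun a (s : Bin) d => bif d then add (Bin.bit false s) (g a) else Bin.bit false s)
    (by fun_prop) (l := fun a => (f a).bits.reverse) (by fun_prop) (const ⟨0⟩)
    (B := fun a => size (f a) + size (g a)) (by fun_prop) (by
      intro a i
      have := mul_fold (g a) (((f a).bits.reverse).take i) 0
      rw [zero_mul] at this
      rw [this]
      have h₁ := valMSB_take_le (f a).bits.reverse i
      rw [Bin.bits, valMSB_bits_reverse] at h₁
      simp only [size_bin, zero_mul, zero_add]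
      exact (Nat.size_le_size (Nat.mul_le_mul_right _ h₁)).trans (natSize_mul_le _ _))).of_eq
    fun a => by
      have := mul_fold (g a) ((f a).bits.reverse) 0
      rw [zero_mul] at this
      rw [this, Bin.bits, valMSB_bits_reverse]
      simp [mul]

theorem bin_divmod {f g : α → Bin} (hf : PT f) (hg : PT g) :
    PT fun a => (Bin.div (f a) (g a), Bin.mod (f a) (g a)) := by
  have hg' : PT fun a => bif (g a).isZero then (⟨1⟩ : Bin) else g a := by fun_prop
  have hpos : ∀ a, 0 < (bif (g a).isZero then (⟨1⟩ : Bin) else g a).val := by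
    intro a
    by_cases h : (g a).val = 0
    · simp [isZero, h]
    · simp [isZero, h]; omega
  have h := foldl (f := fun a => divStep (bif (g a).isZero then (⟨1⟩ : Bin) else g a))
    (by unfold divStep; fun_prop) (l := fun a => (f a).bits.reverse) (by fun_prop)
    (const (⟨0⟩, ⟨0⟩)) (B := fun a => 3 * size (f a) + 1) (by fun_prop) (by
      intro a i
      have := div_fold _ (hpos a) (((f a).bits.reverse).take i) 0
      rw [Nat.zero_div, Nat.zero_mod] at this
      rw [this]
      have h₁ := valMSB_take_le (f a).bits.reverse i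
      rw [Bin.bits, valMSB_bits_reverse] at h₁
      simp only [size_prod, size_bin, zero_mul, zero_add]
      have h₂ := Nat.size_le_size ((Nat.div_le_self _
        (bif (g a).isZero then (⟨1⟩ : Bin) else g a).val).trans h₁)
      have h₃ := Nat.size_le_size ((Nat.mod_le _
        (bif (g a).isZero then (⟨1⟩ : Bin) else g a).val).trans h₁)
      simp only [Bin.bits]
      omega)
  refine (cond hg.bin_isZero (pair (const ⟨0⟩) hf) h).of_eq fun a => ?_
  have := div_fold _ (hpos a) ((f a).bits.reverse) 0
  rw [Nat.zero_div, Nat.zero_mod] at this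
  rw [this, Bin.bits, valMSB_bits_reverse]
  by_cases h : (g a).val = 0
  · simp [isZero, h, div, mod]
  · simp [isZero, h, div, mod]

@[fun_prop] theorem bin_div {f g : α → Bin} (hf : PT f) (hg : PT g) :
    PT fun a => Bin.div (f a) (g a) := (bin_divmod hf hg).fst

@[fun_prop] theorem bin_mod {f g : α → Bin} (hf : PT f) (hg : PT g) :
    PT fun a => Bin.mod (f a) (g a) := (bin_divmod hf hg).snd

end PT

/-! ### Integers -/

/-- Absolute value in binary. -/
def absB (z : ℤ) : Bin := ⟨z.natAbs⟩
/-- Sign test. -/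
def negB (z : ℤ) : Bool := decide (z < 0)
/-- Integer from sign and absolute value. -/
def ofSA (s : Bool) (b : Bin) : ℤ := bif s then -(b.val : ℤ) else b.val

namespace PT

variable {α β : Type} [Enc α] [Enc β]

@[fun_prop] theorem absB {f : α → ℤ} (hf : PT f) : PT fun a => absB (f a) :=
  (rawTail hf.toRaw).of_enc fun _ => rfl

@[fun_prop] theorem negB {f : α → ℤ} (hf : PT f) : PT fun a => negB (f a) :=
  (rawHead (·.getD false) hf.toRaw).of_eq fun _ => rfl

@[fun_prop] theorem ofSA {s : α → Bool} {b : α → Bin} (hs : PT s) (hb : PT b) :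
    PT fun a => ofSA (s a) (b a) :=
  (rawCons (hs.and hb.bin_isZero.not) hb.toRaw).of_enc fun a => by
    simp only [enc_raw, enc_int, enc_bin, PolyTime.ofSA, Bin.isZero]
    cases s a
    · simp
    · by_cases h : (b a).val = 0
      · simp [h]
      · simp [h]; omega

@[fun_prop] theorem int_neg {f : α → ℤ} (hf : PT f) : PT fun a => -f a :=
  (ofSA hf.negB.not hf.absB).of_eq fun a => by
    simp only [PolyTime.ofSA, PolyTime.negB, PolyTime.absB]
    by_cases h : f a < 0 <;> simp [h] <;> omega

@[fun_prop] theorem int_add {f g : α → ℤ} (hf : PT f) (hg : PT g) : PT fun a => f a + g a :=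
  (show PT fun a => bif (PolyTime.negB (f a) ^^ PolyTime.negB (g a)) then
      (bif Bin.lt (PolyTime.absB (f a)) (PolyTime.absB (g a)) then
        PolyTime.ofSA (PolyTime.negB (g a)) (Bin.sub (PolyTime.absB (g a)) (PolyTime.absB (f a)))
      else
        PolyTime.ofSA (PolyTime.negB (f a)) (Bin.sub (PolyTime.absB (f a)) (PolyTime.absB (g a))))
      else PolyTime.ofSA (PolyTime.negB (f a)) (Bin.add (PolyTime.absB (f a)) (PolyTime.absB (g a)))
    by fun_prop).of_eq fun a => by
    simp only [PolyTime.ofSA, PolyTime.negB, PolyTime.absB, Bin.lt, Bin.sub, Bin.add]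
    by_cases h : f a < 0 <;> by_cases h' : g a < 0 <;>
      by_cases h'' : (f a).natAbs < (g a).natAbs <;>
      simp only [h, h', h'', decide_true, decide_false, Bool.xor_true, Bool.xor_false,
        Bool.not_true, Bool.not_false, cond_true, cond_false] <;> omega

@[fun_prop] theorem int_sub {f g : α → ℤ} (hf : PT f) (hg : PT g) : PT fun a => f a - g a :=
  (int_add hf hg.int_neg).of_eq fun a => by ring

@[fun_prop] theorem int_mul {f g : α → ℤ} (hf : PT f) (hg : PT g) : PT fun a => f a * g a :=
  (ofSA (hf.negB.xor hg.negB) (bin_mul hf.absB hg.absB)).of_eq fun a => by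
    simp only [PolyTime.ofSA, PolyTime.negB, PolyTime.absB, Bin.mul]
    by_cases h : f a < 0 <;> by_cases h' : g a < 0
    · simp [h, h', abs_of_neg h, abs_of_neg h']
    · simp [h, h', abs_of_neg h, abs_of_nonneg (not_lt.1 h')]
    · simp [h, h', abs_of_neg h', abs_of_nonneg (not_lt.1 h)]
    · simp [h, h', abs_of_nonneg (not_lt.1 h'), abs_of_nonneg (not_lt.1 h)]

@[fun_prop] theorem int_lt {f g : α → ℤ} (hf : PT f) (hg : PT g) :
    PT fun a => decide (f a < g a) :=
  (int_sub hf hg).negB.of_eq fun a => by simp [PolyTime.negB]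

@[fun_prop] theorem int_le {f g : α → ℤ} (hf : PT f) (hg : PT g) :
    PT fun a => decide (f a ≤ g a) :=
  (int_lt hg hf).not.of_eq fun a => by rw [← _root_.decide_not]; simp

@[fun_prop] theorem int_eq {f g : α → ℤ} (hf : PT f) (hg : PT g) :
    PT fun a => decide (f a = g a) :=
  (int_sub hf hg).absB.bin_isZero.of_eq fun a => by
    simp [PolyTime.absB, Bin.isZero, sub_eq_zero]

@[fun_prop] theorem int_ne {f g : α → ℤ} (hf : PT f) (hg : PT g) :
    PT fun a => decide (f a ≠ g a) := decide_not (int_eq hf hg)

@[fun_prop] theorem int_abs {f : α → ℤ} (hf : PT f) : PT fun a => |f a| :=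
  (ofSA (const false) hf.absB).of_eq fun a => by simp [PolyTime.ofSA, PolyTime.absB]

@[fun_prop] theorem int_emod {f g : α → ℤ} (hf : PT f) (hg : PT g) : PT fun a => f a % g a := by
  have hr : PT fun a => PolyTime.ofSA false (Bin.mod (PolyTime.absB (f a)) (PolyTime.absB (g a))) :=
    by fun_prop
  have hr' : PT fun a => |f a| % |g a| := hr.of_eq fun a => by
    simp [PolyTime.ofSA, PolyTime.absB, Bin.mod]
  refine (show PT fun a => if g a = 0 then f a else if 0 ≤ f a then |f a| % |g a| else
    if |f a| % |g a| = 0 then 0 else |g a| - |f a| % |g a| by fun_prop).of_eq fun a => ?_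
  by_cases h0 : g a = 0
  · simp [h0]
  rw [if_neg h0]
  by_cases h1 : 0 ≤ f a
  · rw [if_pos h1, abs_of_nonneg h1, Int.emod_abs]
  rw [if_neg h1, abs_of_neg (not_le.1 h1), ← Int.emod_abs (f a) (g a)]
  have hpos : 0 < |g a| := abs_pos.2 h0
  by_cases h2 : -f a % |g a| = 0
  · rw [if_pos h2]
    exact (Int.emod_eq_zero_of_dvd (by simpa using Int.dvd_of_emod_eq_zero h2)).symm
  · rw [if_neg h2]
    have h3 := Int.emod_nonneg (-f a) hpos.ne'
    have h4 := Int.emod_lt_of_pos (-f a) hpos
    have h5 := Int.emod_add_mul_ediv (-f a) |g a|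
    have : f a = (|g a| - -f a % |g a|) + |g a| * (-(-f a / |g a|) - 1) := by linarith
    conv_rhs => rw [this, Int.add_mul_emod_self_left]
    exact (Int.emod_eq_of_lt (by omega) (by omega)).symm

@[fun_prop] theorem int_ediv {f g : α → ℤ} (hf : PT f) (hg : PT g) : PT fun a => f a / g a := by
  have hd : PT fun a => f a - f a % g a := by fun_prop
  refine (ofSA (hd.negB.xor hg.negB) (bin_div hd.absB hg.absB)).of_eq fun a => ?_
  by_cases h0 : g a = 0
  · simp [h0, PolyTime.ofSA, PolyTime.absB, Bin.div]
  have e : f a - f a % g a = g a * (f a / g a) := by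
    have := Int.emod_add_mul_ediv (f a) (g a); linarith
  simp only [PolyTime.ofSA, PolyTime.negB, PolyTime.absB, Bin.div, e, Int.natAbs_mul]
  rw [Nat.mul_div_cancel_left _ (Int.natAbs_pos.2 h0)]
  generalize f a / g a = q
  rcases lt_trichotomy q 0 with hq | rfl | hq
  · rcases lt_or_gt_of_ne h0 with hg | hg
    · have : ¬ g a * q < 0 := not_lt.2 (mul_pos_of_neg_of_neg hg hq).le
      simp [this, hg, abs_of_neg hq]
    · have : g a * q < 0 := mul_neg_of_pos_of_neg hg hq
      simp [this, not_lt.2 hg.le, abs_of_neg hq]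
  · simp
  · rcases lt_or_gt_of_ne h0 with hg | hg
    · have : g a * q < 0 := mul_neg_of_neg_of_pos hg hq
      simp [this, hg, abs_of_pos hq]
    · have : ¬ g a * q < 0 := not_lt.2 (mul_pos hg hq).le
      simp [this, not_lt.2 hg.le, abs_of_pos hq]

@[fun_prop] theorem int_sum {l : α → List ℤ} (hl : PT l) : PT fun a => (l a).sum :=
  (foldl_growth (f := fun _ (s : ℤ) b => s + b) (by fun_prop) hl
    (const 0) (G := fun p => size p.2) (by fun_prop)
    (fun _ s b => size_int_add_le s b)).of_eq fun a => by rw [List.sum_eq_foldl]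

@[fun_prop] theorem int_prod {l : α → List ℤ} (hl : PT l) : PT fun a => (l a).prod :=
  (foldl_growth (f := fun _ (s : ℤ) b => s * b) (by fun_prop) hl
    (const 1) (G := fun p => size p.2) (by fun_prop)
    (fun _ s b => size_int_mul_le s b)).of_eq fun a => by rw [List.prod_eq_foldl]

@[fun_prop] theorem int_pow {f : α → ℤ} {n : α → ℕ} (hf : PT f) (hn : PT n) :
    PT fun a => f a ^ n a :=
  (replicate hn hf).int_prod.of_eq fun a => by simp

@[fun_prop] theorem natCast {n : α → ℕ} (hn : PT n) : PT fun a => (n a : ℤ) :=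
  (replicate hn (const (1 : ℤ))).int_sum.of_eq fun a => by simp

/-- Conversion of an integer to unary, capped by a unary bound. -/
theorem toNat_min {f : α → ℤ} {n : α → ℕ} (hf : PT f) (hn : PT n) :
    PT fun a => min (f a).toNat (n a) :=
  (show PT fun a => ((List.range (n a)).filter fun i : ℕ => decide ((i : ℤ) < f a)).length
    by fun_prop).of_eq fun a => by
    generalize n a = m
    induction m with
    | zero => simp
    | succ m ih =>
      rw [List.range_succ, List.filter_append, List.length_append, ih]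
      by_cases h : (m : ℤ) < f a <;> simp [h] <;> omega

/-- Conversion of a polynomially bounded integer to unary. -/
theorem toNat_of_le {f : α → ℤ} {n : α → ℕ} (hf : PT f) (hn : PT n) (h : ∀ a, (f a).toNat ≤ n a) :
    PT fun a => (f a).toNat := (toNat_min hf hn).of_eq fun a => min_eq_left (h a)

/-- Binary digits of the absolute value. -/
@[fun_prop] theorem natAbs_bits {f : α → ℤ} (hf : PT f) : PT fun a => (f a).natAbs.bits :=
  hf.absB.bin_bits

/-- Integer with the given binary digits, most significant first. -/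
@[fun_prop] theorem int_valMSB {l : α → List Bool} (hl : PT l) :
    PT fun a => (Bin.valMSB (l a) : ℤ) :=
  (ofSA (const false) (bin_ofMSB (const ⟨0⟩) hl)).of_eq fun a => by
    simp [PolyTime.ofSA, Bin.ofMSB_val]

end PT

end Crest.Agent.Lib.PolyTime
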