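import Crest.Agent.Lib.PolyTime.Int
import Crest.Prelude.Def_Complexity
import Crest.Prelude.Def_BitEnc

/-!
Bridges from the typed predicate `PT` to `Crest.Complexity.PolyTime` etc., and the codes of
`Crest.Enc` as `PT` functions.
-/

set_option autoImplicit false

namespace Crest.Agent.Lib.PolyTime

open Crest.Complexity Crest.Enc

/-- Group the bits of a string two by two. -/
def pairUp : List Bool → List (Bool × Bool)
  | a :: b :: l => (a, b) :: pairUp l
  | _ => []

theorem pairUp_eq (l : List Bool) : pairUp l =
    (List.range (l.length / 2)).map fun i => (l.getD (2 * i) false, l.getD (2 * i + 1) false) := by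
  fun_induction pairUp l with
  | case1 a b l ih =>
    have : (a :: b :: l).length / 2 = l.length / 2 + 1 := by simp; omega
    rw [this, List.range_succ_eq_map, List.map_cons, List.map_map, ih]
    rfl
  | case2 l h =>
    rcases l with _ | ⟨a, _ | ⟨b, l⟩⟩
    · rfl
    · simp
    · exact absurd rfl (h a b l)

theorem pairUp_flatMap {G : Type} (c₁ c₂ : G → Bool) (x : List G) :
    pairUp (x.flatMap fun g => [c₁ g, c₂ g]) = x.map fun g => (c₁ g, c₂ g) := by
  induction x with
  | nil => rfl
  | cons g x ih => simp [pairUp, ih]

namespace PT

variable {α β : Type} [Enc α] [Enc β]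

@[fun_prop] theorem pairUp {l : α → List Bool} (hl : PT l) : PT fun a => pairUp (l a) :=
  (show PT fun a => (List.range ((l a).length / 2)).map fun i =>
    ((l a).getD (2 * i) false, (l a).getD (2 * i + 1) false) by fun_prop).of_eq
    fun _ => (pairUp_eq _).symm

/-- General bridge: the input word is recovered as a list of pairs of bits. -/
theorem toTM2 {A B G : Type} [Fintype G] (c₁ c₂ : G → Bool) (e : A → List G)
    (eb : B → List Bool) (f : A → B) (F : List (Bool × Bool) → List Bool) (hF : PT F)
    (h : ∀ a, F ((e a).map fun g => (c₁ g, c₂ g)) = eb (f a)) :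
    Nonempty (Turing.TM2ComputableInPolyTime e eb f) := by
  have h₁ : PT fun r : Raw => Raw.mk (F (PolyTime.pairUp r.bits.reverse)) :=
    rawMk (hF.comp (rawBits id').reverse.pairUp)
  refine PTR.toTM2 c₁ c₂ e eb f ?_
  refine (PTR.restrict h₁ fun a => Raw.mk (rdCode c₁ c₂ (e a))).congr fun a => ?_
  simp [rdCode, pairUp_flatMap, h]

/-- A `PT` map of bit lists is polynomial-time in the sense of `Crest.Complexity`. -/
theorem polyTime {f : List Bool → List Bool} (hf : PT f) : PolyTime f :=
  toTM2 (fun _ => true) id _ _ f (fun l => f (l.map fun p => p.2)) (by fun_prop) fun a => by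
    simp [Computability.encodingList, Function.comp_def]

theorem polyTimePred {f : List Bool → Bool} (hf : PT f) : PolyTimePred f :=
  toTM2 (fun _ => true) id _ _ f (fun l => [f (l.map fun p => p.2)]) (by fun_prop) fun a => by
    simp [Computability.encodingList, Function.comp_def, Computability.encodeBool]

theorem polyTime_pair_aux {B : Type} (eb : B → List Bool) (f : List Bool × List Bool → B)
    (hf : PT fun p => eb (f p)) : PolyTimeComputable pairEnc eb f :=
  toTM2 Sum.isRight (Sum.elim id id) _ _ f
    (fun l => eb (f ((l.filter fun p => !p.1).map fun p => p.2,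
      (l.filter fun p => p.1).map fun p => p.2))) (hf.comp (by fun_prop)) fun a => by
    simp [pairEnc, Computability.encodingProd, Computability.encodingList, Function.comp_def,
      List.filter_map]

/-- Two-argument version, inputs presented through `pairEnc`. -/
theorem polyTime₂ {f : List Bool × List Bool → List Bool} (hf : PT f) :
    PolyTimeComputable pairEnc (Computability.encodingList Bool).encode f :=
  polyTime_pair_aux _ f hf

theorem polyTimePred₂ {f : List Bool × List Bool → Bool} (hf : PT f) : PolyTimePred₂ f :=
  polyTime_pair_aux _ f (show PT fun p => [f p] by fun_prop)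

/-! ### Parsing -/

@[fun_prop] theorem splitR {l : α → List Bool} (hl : PT l) : PT fun a => splitR (l a) :=
  pair (rawBits (r := fun a => Raw.mk (PolyTime.splitR (l a)).1) (PTR.fstR.raw hl.rawMk))
    (rawBits (r := fun a => Raw.mk (PolyTime.splitR (l a)).2) (PTR.sndR.raw hl.rawMk))

omit [Enc α] [Enc β] in
theorem takeWhile_fold (p : β → Bool) (l : List β) (acc : List β) :
    (l.foldl (fun (s : Bool × List β) b => bif s.1 && p b then (true, b :: s.2) else (false, s.2))
      (false, acc)).2 = acc ∧
    (l.foldl (fun (s : Bool × List β) b => bif s.1 && p b then (true, b :: s.2) else (false, s.2))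
      (true, acc)).2 = (l.takeWhile p).reverse ++ acc := by
  induction l generalizing acc with
  | nil => simp
  | cons b l ih =>
    refine ⟨by simpa using (ih acc).1, ?_⟩
    cases h : p b
    · simpa [h] using (ih acc).1
    · simpa [h] using (ih (b :: acc)).2

@[fun_prop] theorem takeWhile {p : α → β → Bool} (hp : PT fun q : α × β => p q.1 q.2)
    {l : α → List β} (hl : PT l) : PT fun a => (l a).takeWhile (p a) :=
  (foldl_growth (f := fun a (s : Bool × List β) b =>
      bif s.1 && p a b then (true, b :: s.2) else (false, s.2))
    (cond ((fst (fst (snd id'))).and (hp.comp (pair (fst id') (snd (snd id')))))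
      (by fun_prop) (by fun_prop)) hl (const (true, []))
    (G := fun q => 2 * size q.2 + 1) (by fun_prop) (by
      rintro a ⟨s₁, s₂⟩ b
      cases s₁ && p a b <;> simp; omega)).snd.reverse.of_eq fun a => by
    simp [(takeWhile_fold (p a) (l a) []).2]

@[fun_prop] theorem dropWhile {p : α → β → Bool} (hp : PT fun q : α × β => p q.1 q.2)
    {l : α → List β} (hl : PT l) : PT fun a => (l a).dropWhile (p a) :=
  (drop (takeWhile hp hl).length hl).of_eq fun a => by
    conv_lhs => rw [← List.takeWhile_append_dropWhile (p := p a) (l := l a)]
    rw [List.takeWhile_append_dropWhile]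
    induction l a with
    | nil => rfl
    | cons b l ih => cases h : p a b <;> simp [h, ih]

/-! ### Codes -/

@[fun_prop] theorem natCode_natAbs {f : α → ℤ} (hf : PT f) : PT fun a => natCode (f a).natAbs :=
  (show PT fun a => (((f a).natAbs.bits.map fun b => [true, b]).flatten ++ [false, false])
    from append (flatten (map (by fun_prop) hf.natAbs_bits)) (const _)).of_eq fun _ => rfl

/-- The binary code of a unary number. -/
theorem natCode {f : α → ℕ} (hf : PT f) : PT fun a => natCode (f a) :=
  (natCode_natAbs hf.natCast).of_eq fun a => by simp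

@[fun_prop] theorem intCode {f : α → ℤ} (hf : PT f) : PT fun a => intCode (f a) :=
  (cons (int_lt hf (const 0)) hf.natCode_natAbs).of_eq fun _ => rfl

/-- The rational code of an integer. -/
theorem ratCode_intCast {f : α → ℤ} (hf : PT f) : PT fun a => ratCode (f a : ℚ) :=
  (cons (int_lt hf (const 0)) (append hf.natCode_natAbs (const (Crest.Enc.natCode 1)))).of_eq
    fun a => by simp [ratCode]

end PT

/-- Read a `natCode` prefix: the value (as an integer) and the remaining bits. -/
def readNat (l : List Bool) : ℤ × List Bool :=
  ((Bin.valMSB (splitR l).1.reverse : ℤ), (splitR l).2.tail)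

theorem readNat_natCode (n : ℕ) (r : List Bool) : readNat (natCode n ++ r) = ((n : ℤ), r) := by
  have : natCode n ++ r = pairR n.bits (false :: r) := by
    simp [natCode, pairR, List.flatMap]
  rw [readNat, this, splitR_pairR, Bin.valMSB_bits_reverse]
  rfl

@[fun_prop] theorem PT.readNat {α : Type} [Enc α] {l : α → List Bool} (hl : PT l) :
    PT fun a => readNat (l a) := by
  unfold PolyTime.readNat; fun_prop

/-- Read a unary prefix `1^n 0`: the number and the remaining bits. -/
def readUnary (l : List Bool) : ℕ × List Bool :=
  ((l.takeWhile fun b => b).length, (l.dropWhile fun b => b).tail)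

theorem readUnary_replicate (n : ℕ) (r : List Bool) :
    readUnary (List.replicate n true ++ false :: r) = (n, r) := by
  induction n with
  | zero => simp [readUnary]
  | succ n ih => simp [readUnary, List.replicate_succ]

@[fun_prop] theorem PT.readUnary {α : Type} [Enc α] {l : α → List Bool} (hl : PT l) :
    PT fun a => readUnary (l a) := by
  unfold PolyTime.readUnary; fun_prop

end Crest.Agent.Lib.PolyTime
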