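import Mathlib

/-!
A tiny structured language on finitely many bit stacks, its cost semantics, and its
compilation to Mathlib's `Turing.FinTM2`.
-/

set_option autoImplicit false

namespace Crest.Agent.Lib.PolyTime

open Function Turing

/-- Structured programs on bit stacks indexed by `K`. `case` pops a bit and branches,
`loop` pops a bit and runs the matching body until the stack is empty. -/
inductive Cmd (K : Type) : Type
  | skip : Cmd K
  | push : K → Bool → Cmd K
  | seq : Cmd K → Cmd K → Cmd K
  | case : K → Cmd K → Cmd K → Cmd K → Cmd K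
  | loop : K → Cmd K → Cmd K → Cmd K

/-- Contents of all stacks. -/
abbrev St (K : Type) : Type := K → List Bool

/-- Big-step semantics with an upper bound on the number of machine steps. -/
inductive Exec {K : Type} [DecidableEq K] : Cmd K → St K → St K → ℕ → Prop
  | skip (s : St K) : Exec .skip s s 1
  | push (k : K) (b : Bool) (s : St K) : Exec (.push k b) s (update s k (b :: s k)) 1
  | seq {c₁ c₂ : Cmd K} {s s' s'' : St K} {t₁ t₂ : ℕ} :
      Exec c₁ s s' t₁ → Exec c₂ s' s'' t₂ → Exec (.seq c₁ c₂) s s'' (t₁ + t₂)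
  | caseN {k : K} {cN cF cT : Cmd K} {s s' : St K} {t : ℕ} :
      s k = [] → Exec cN s s' t → Exec (.case k cN cF cT) s s' (t + 1)
  | caseF {k : K} {cN cF cT : Cmd K} {s s' : St K} {t : ℕ} {r : List Bool} :
      s k = false :: r → Exec cF (update s k r) s' t → Exec (.case k cN cF cT) s s' (t + 1)
  | caseT {k : K} {cN cF cT : Cmd K} {s s' : St K} {t : ℕ} {r : List Bool} :
      s k = true :: r → Exec cT (update s k r) s' t → Exec (.case k cN cF cT) s s' (t + 1)
  | loopN {k : K} {cF cT : Cmd K} {s : St K} : s k = [] → Exec (.loop k cF cT) s s 1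
  | loopF {k : K} {cF cT : Cmd K} {s s' s'' : St K} {t₁ t₂ : ℕ} {r : List Bool} :
      s k = false :: r → Exec cF (update s k r) s' t₁ → Exec (.loop k cF cT) s' s'' t₂ →
      Exec (.loop k cF cT) s s'' (t₁ + t₂ + 1)
  | loopT {k : K} {cF cT : Cmd K} {s s' s'' : St K} {t₁ t₂ : ℕ} {r : List Bool} :
      s k = true :: r → Exec cT (update s k r) s' t₁ → Exec (.loop k cF cT) s' s'' t₂ →
      Exec (.loop k cF cT) s s'' (t₁ + t₂ + 1)
  | mono {c : Cmd K} {s s' : St K} {t t' : ℕ} : Exec c s s' t → t ≤ t' → Exec c s s' t'

section Basic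

variable {K : Type} [DecidableEq K]

theorem Exec.cast {c : Cmd K} {s s' s₂ : St K} {t t' : ℕ} (h : Exec c s s' t) (hs : s' = s₂)
    (ht : t ≤ t') : Exec c s s₂ t' := hs ▸ h.mono ht

theorem length_update_le (s : St K) (k j : K) (r : List Bool) (n : ℕ)
    (h : r.length ≤ (s k).length + n) : (update s k r j).length ≤ (s j).length + n := by
  by_cases hj : j = k
  · subst hj; simpa using h
  · rw [update_of_ne hj]; omega

/-- A stack grows by at most one bit per step. -/
theorem Exec.length_le {c : Cmd K} {s s' : St K} {t : ℕ} (h : Exec c s s' t) (j : K) :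
    (s' j).length ≤ (s j).length + t := by
  induction h with
  | skip s => omega
  | push k b s => exact length_update_le s k j _ 1 (by simp)
  | seq _ _ ih₁ ih₂ => omega
  | caseN _ _ ih => omega
  | @caseF k _ _ _ s _ _ r hs _ ih =>
    have := length_update_le s k j r 0 (by simp [hs]); omega
  | @caseT k _ _ _ s _ _ r hs _ ih =>
    have := length_update_le s k j r 0 (by simp [hs]); omega
  | loopN _ => omega
  | @loopF k _ _ s _ _ _ _ r hs _ _ ih₁ ih₂ =>
    have := length_update_le s k j r 0 (by simp [hs]); omega
  | @loopT k _ _ s _ _ _ _ r hs _ _ ih₁ ih₂ =>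
    have := length_update_le s k j r 0 (by simp [hs]); omega
  | mono _ h ih => omega

end Basic

/-! ### Renaming of stacks and the frame rule -/

/-- Rename the stacks of a program. -/
def Cmd.map {K K' : Type} (e : K → K') : Cmd K → Cmd K'
  | .skip => .skip
  | .push k b => .push (e k) b
  | .seq a b => .seq (a.map e) (b.map e)
  | .case k a b c => .case (e k) (a.map e) (b.map e) (c.map e)
  | .loop k a b => .loop (e k) (a.map e) (b.map e)

section Frame

variable {K K' : Type} [DecidableEq K] [DecidableEq K']

theorem extend_update {e : K → K'} (he : Injective e) (s : St K) (u : St K') (k : K)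
    (r : List Bool) :
    update (Function.extend e s u) (e k) r = Function.extend e (update s k r) u := by
  funext j
  by_cases hj : j = e k
  · subst hj; simp [he.extend_apply]
  · rw [update_of_ne hj]
    by_cases hex : ∃ a, e a = j
    · obtain ⟨a, rfl⟩ := hex
      have : a ≠ k := fun h => hj (by rw [h])
      simp [he.extend_apply, update_of_ne this]
    · simp [Function.extend_apply' _ _ _ hex]

theorem Exec.map_extend {e : K → K'} (he : Injective e) (u : St K') {c : Cmd K} {s s' : St K}
    {t : ℕ} (h : Exec c s s' t) :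
    Exec (c.map e) (Function.extend e s u) (Function.extend e s' u) t := by
  induction h with
  | skip s => exact .skip _
  | push k b s =>
    have := Exec.push (e k) b (Function.extend e s u)
    rw [extend_update he, he.extend_apply] at this
    exact this
  | seq _ _ ih₁ ih₂ => exact .seq ih₁ ih₂
  | caseN hs _ ih => exact .caseN (by rw [he.extend_apply, hs]) ih
  | caseF hs _ ih =>
    exact .caseF (by rw [he.extend_apply, hs]) (by rw [extend_update he]; exact ih)
  | caseT hs _ ih =>
    exact .caseT (by rw [he.extend_apply, hs]) (by rw [extend_update he]; exact ih)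
  | loopN hs => exact .loopN (by rw [he.extend_apply, hs])
  | loopF hs _ _ ih₁ ih₂ =>
    exact .loopF (by rw [he.extend_apply, hs]) (by rw [extend_update he]; exact ih₁) ih₂
  | loopT hs _ _ ih₁ ih₂ =>
    exact .loopT (by rw [he.extend_apply, hs]) (by rw [extend_update he]; exact ih₁) ih₂
  | mono _ h ih => exact ih.mono h

end Frame

/-! ### Compilation to `TM2` -/

/-- Program points. -/
def Cmd.Lab {K : Type} : Cmd K → Type
  | .skip => Unit
  | .push _ _ => Unit
  | .seq a b => a.Lab ⊕ b.Lab
  | .case _ a b c => Option (a.Lab ⊕ b.Lab ⊕ c.Lab)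
  | .loop _ a b => Option (a.Lab ⊕ b.Lab)

/-- There are finitely many program points. -/
@[reducible] def Cmd.labFintype {K : Type} : (c : Cmd K) → Fintype c.Lab
  | .skip => inferInstanceAs (Fintype Unit)
  | .push _ _ => inferInstanceAs (Fintype Unit)
  | .seq a b =>
    letI := a.labFintype; letI := b.labFintype; inferInstanceAs (Fintype (a.Lab ⊕ b.Lab))
  | .case _ a b c =>
    letI := a.labFintype; letI := b.labFintype; letI := c.labFintype
    inferInstanceAs (Fintype (Option (a.Lab ⊕ b.Lab ⊕ c.Lab)))
  | .loop _ a b =>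
    letI := a.labFintype; letI := b.labFintype
    inferInstanceAs (Fintype (Option (a.Lab ⊕ b.Lab)))

/-- The first program point. -/
def Cmd.entry {K : Type} : (c : Cmd K) → c.Lab
  | .skip => ()
  | .push _ _ => ()
  | .seq a _ => Sum.inl a.entry
  | .case _ _ _ _ => none
  | .loop _ _ _ => none

/-- Stack alphabets of the compiled machine: the extra stack `none` holds the input. -/
def Gam (K G : Type) : Option K → Type
  | none => G
  | some _ => Bool

/-- Internal states of the compiled machine. -/
abbrev Var (G : Type) : Type := Option Bool × Option G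

/-- Pick a label from the last popped bit. -/
def pick {Λ G : Type} (a b c : Λ) (v : Var G) : Λ :=
  match v.1 with
  | none => a
  | some false => b
  | some true => c

/-- The statement at each program point. -/
def Cmd.code {K G Λ : Type} : (c : Cmd K) → (c.Lab → Λ) → Λ → c.Lab →
    TM2.Stmt (Gam K G) Λ (Var G)
  | .skip, _, ex, _ => .goto fun _ => ex
  | .push k b, _, ex, _ => .push (some k) (fun _ => b) (.goto fun _ => ex)
  | .seq a b, em, _, Sum.inl l => a.code (fun x => em (Sum.inl x)) (em (Sum.inr b.entry)) l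
  | .seq _ b, em, ex, Sum.inr l => b.code (fun x => em (Sum.inr x)) ex l
  | .case k a b c, em, _, none =>
      .pop (some k) (fun v o => (o, v.2)) (.goto (pick (em (some (Sum.inl a.entry)))
        (em (some (Sum.inr (Sum.inl b.entry)))) (em (some (Sum.inr (Sum.inr c.entry))))))
  | .case _ a _ _, em, ex, some (Sum.inl l) => a.code (fun x => em (some (Sum.inl x))) ex l
  | .case _ _ b _, em, ex, some (Sum.inr (Sum.inl l)) =>
      b.code (fun x => em (some (Sum.inr (Sum.inl x)))) ex l
  | .case _ _ _ c, em, ex, some (Sum.inr (Sum.inr l)) =>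
      c.code (fun x => em (some (Sum.inr (Sum.inr x)))) ex l
  | .loop k a b, em, ex, none =>
      .pop (some k) (fun v o => (o, v.2)) (.goto (pick ex
        (em (some (Sum.inl a.entry))) (em (some (Sum.inr b.entry)))))
  | .loop _ a _, em, _, some (Sum.inl l) => a.code (fun x => em (some (Sum.inl x))) (em none) l
  | .loop _ _ b, em, _, some (Sum.inr l) => b.code (fun x => em (some (Sum.inr x))) (em none) l

/-- The machine stacks holding `s`, with `i` on the input stack. -/
def lift {K G : Type} (s : St K) (i : List G) : (k : Option K) → List (Gam K G k)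
  | none => i
  | some k => s k

section Sim

variable {K G Λ : Type} [DecidableEq K]

theorem lift_update (s : St K) (i : List G) (k : K) (r : List Bool) :
    update (lift s i) (some k) (show List (Gam K G (some k)) from r) = lift (update s k r) i := by
  funext j
  cases j with
  | none => simp [lift]
  | some j =>
    by_cases h : j = k
    · subst h; simp [lift]
    · rw [update_of_ne (by simpa using h)]; simp [lift, update_of_ne h]

theorem lift_update_none (s : St K) (i i' : List G) :
    update (lift s i) none (show List (Gam K G none) from i') = lift s i' := by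
  funext j
  cases j with
  | none => simp [lift]
  | some j => rw [update_of_ne (by simp)]; simp [lift]

/-- `n` steps of the machine lead from `a` to `b`. -/
def Steps (M : Λ → TM2.Stmt (Gam K G) Λ (Var G)) (n : ℕ)
    (a b : TM2.Cfg (Gam K G) Λ (Var G)) : Prop :=
  (flip bind (TM2.step M))^[n] (some a) = some b

theorem Steps.trans {M : Λ → TM2.Stmt (Gam K G) Λ (Var G)} {n m : ℕ}
    {a b c : TM2.Cfg (Gam K G) Λ (Var G)} (h₁ : Steps M n a b) (h₂ : Steps M m b c) :
    Steps M (n + m) a c := by
  unfold Steps at *
  rw [add_comm, iterate_add_apply, h₁, h₂]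

theorem Steps.one {M : Λ → TM2.Stmt (Gam K G) Λ (Var G)} (l : Λ) (v : Var G)
    (S : (k : Option K) → List (Gam K G k)) {b : TM2.Cfg (Gam K G) Λ (Var G)}
    (h : TM2.stepAux (M l) v S = b) : Steps M 1 ⟨some l, v, S⟩ b := by
  unfold Steps
  simp [flip, h]

theorem step_pop {M : Λ → TM2.Stmt (Gam K G) Λ (Var G)} (l : Λ) (v : Var G) (s : St K) (k : K)
    (a b c : Λ)
    (h : M l = .pop (some k) (fun v o => (o, v.2)) (.goto (pick a b c))) :
    Steps M 1 ⟨some l, v, lift s []⟩
      ⟨some (pick a b c (((s k).head?, v.2) : Var G)), ((s k).head?, v.2),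
        lift (update s k (s k).tail) []⟩ := by
  apply Steps.one
  rw [h, TM2.stepAux, TM2.stepAux, ← lift_update]
  rfl

theorem Exec.sim {c : Cmd K} {s s' : St K} {t : ℕ} (h : Exec c s s' t) :
    ∀ (M : Λ → TM2.Stmt (Gam K G) Λ (Var G)) (em : c.Lab → Λ) (ex : Λ),
      (∀ l, M (em l) = c.code em ex l) → ∀ v : Var G, ∃ n ≤ t, ∃ v' : Var G,
        Steps M n ⟨some (em c.entry), v, lift s []⟩ ⟨some ex, v', lift s' []⟩ := by
  induction h with
  | skip s =>
    intro M em ex hM v
    exact ⟨1, le_rfl, v, Steps.one _ _ _ (by rw [hM]; rfl)⟩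
  | push k b s =>
    intro M em ex hM v
    refine ⟨1, le_rfl, v, Steps.one _ _ _ ?_⟩
    rw [hM, ← lift_update]; rfl
  | @seq c₁ c₂ _ _ _ _ _ _ _ ih₁ ih₂ =>
    intro M em ex hM v
    obtain ⟨n₁, hn₁, v₁, h₁⟩ := ih₁ M (fun x => em (Sum.inl x)) (em (Sum.inr c₂.entry))
      (fun l => hM (Sum.inl l)) v
    obtain ⟨n₂, hn₂, v₂, h₂⟩ := ih₂ M (fun x => em (Sum.inr x)) ex (fun l => hM (Sum.inr l)) v₁
    exact ⟨n₁ + n₂, by omega, v₂, h₁.trans h₂⟩
  | @caseN k cN cF cT s _ _ hs _ ih =>
    intro M em ex hM v
    have h₀ := step_pop (M := M) (em none) v s k _ _ _ (hM none)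
    obtain ⟨n, hn, v', h₁⟩ := ih M (fun x => em (some (Sum.inl x))) ex
      (fun l => hM (some (Sum.inl l))) ((s k).head?, v.2)
    refine ⟨1 + n, by omega, v', h₀.trans ?_⟩
    have e : update s k (s k).tail = s := by rw [hs, List.tail_nil, ← hs, update_eq_self]
    rw [e]
    simpa [hs, pick] using h₁
  | @caseF k cN cF cT s _ _ r hs _ ih =>
    intro M em ex hM v
    have h₀ := step_pop (M := M) (em none) v s k _ _ _ (hM none)
    obtain ⟨n, hn, v', h₁⟩ := ih M (fun x => em (some (Sum.inr (Sum.inl x)))) ex
      (fun l => hM (some (Sum.inr (Sum.inl l)))) ((s k).head?, v.2)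
    refine ⟨1 + n, by omega, v', h₀.trans ?_⟩
    simpa [hs, pick] using h₁
  | @caseT k cN cF cT s _ _ r hs _ ih =>
    intro M em ex hM v
    have h₀ := step_pop (M := M) (em none) v s k _ _ _ (hM none)
    obtain ⟨n, hn, v', h₁⟩ := ih M (fun x => em (some (Sum.inr (Sum.inr x)))) ex
      (fun l => hM (some (Sum.inr (Sum.inr l)))) ((s k).head?, v.2)
    refine ⟨1 + n, by omega, v', h₀.trans ?_⟩
    simpa [hs, pick] using h₁
  | @loopN k cF cT s hs =>
    intro M em ex hM v
    have h₀ := step_pop (M := M) (em none) v s k _ _ _ (hM none)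
    have e : update s k (s k).tail = s := by rw [hs, List.tail_nil, ← hs, update_eq_self]
    rw [e] at h₀
    refine ⟨1, le_rfl, ((s k).head?, v.2), ?_⟩
    simp only [hs, pick, List.head?_nil] at h₀ ⊢
    exact h₀
  | @loopF k cF cT s _ _ _ _ r hs _ _ ih₁ ih₂ =>
    intro M em ex hM v
    have h₀ := step_pop (M := M) (em none) v s k _ _ _ (hM none)
    obtain ⟨n₁, hn₁, v₁, h₁⟩ := ih₁ M (fun x => em (some (Sum.inl x))) (em none)
      (fun l => hM (some (Sum.inl l))) ((s k).head?, v.2)
    obtain ⟨n₂, hn₂, v₂, h₂⟩ := ih₂ M em ex hM v₁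
    refine ⟨1 + (n₁ + n₂), by omega, v₂, h₀.trans (Steps.trans ?_ h₂)⟩
    simp only [hs, pick, List.head?_cons, List.tail_cons] at h₁ ⊢
    exact h₁
  | @loopT k cF cT s _ _ _ _ r hs _ _ ih₁ ih₂ =>
    intro M em ex hM v
    have h₀ := step_pop (M := M) (em none) v s k _ _ _ (hM none)
    obtain ⟨n₁, hn₁, v₁, h₁⟩ := ih₁ M (fun x => em (some (Sum.inr x))) (em none)
      (fun l => hM (some (Sum.inr l))) ((s k).head?, v.2)
    obtain ⟨n₂, hn₂, v₂, h₂⟩ := ih₂ M em ex hM v₁
    refine ⟨1 + (n₁ + n₂), by omega, v₂, h₀.trans (Steps.trans ?_ h₂)⟩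
    simp only [hs, pick, List.head?_cons, List.tail_cons] at h₁ ⊢
    exact h₁
  | mono _ h ih =>
    intro M em ex hM v
    obtain ⟨n, hn, v', h₁⟩ := ih M em ex hM v
    exact ⟨n, hn.trans h, v', h₁⟩

end Sim

/-! ### The bundled machine -/

/-- The state with `x` on the main stack `none` and all auxiliary stacks empty. -/
def one {K : Type} (x : List Bool) : St (Option K)
  | none => x
  | some _ => []

/-- The program of the bundled machine: read the input onto the main stack (two bits per
symbol, reversed), run `c`, reset and halt. -/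
def mainCode {K G : Type} (c₁ c₂ : G → Bool) (c : Cmd (Option K)) :
    Option (Option c.Lab) → TM2.Stmt (Gam (Option K) G) (Option (Option c.Lab)) (Var G)
  | none => .pop none (fun v o => (v.1, o))
      (.branch (fun v => v.2.isNone) (.goto fun _ => some (some c.entry))
        (.push (some none) (fun v => (v.2.map c₁).getD false)
          (.push (some none) (fun v => (v.2.map c₂).getD false) (.goto fun _ => none))))
  | some none => .load (fun _ => (none, none)) .halt
  | some (some l) => c.code (fun x => some (some x)) (some none) l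

/-- The bundled machine. -/
def machine {K G : Type} [Fintype K] [DecidableEq K] [Fintype G] (c₁ c₂ : G → Bool)
    (c : Cmd (Option K)) : FinTM2 :=
  letI := c.labFintype
  { K := Option (Option K)
    k₀ := none
    k₁ := some none
    Γ := Gam (Option K) G
    Λ := Option (Option c.Lab)
    main := none
    σ := Var G
    initialState := (none, none)
    Γk₀Fin := inferInstanceAs (Fintype G)
    m := mainCode c₁ c₂ c }

/-- The two-bits-per-symbol reversed presentation of an input word. -/
def rdCode {G : Type} (c₁ c₂ : G → Bool) (x : List G) : List Bool :=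
  (x.flatMap fun g => [c₁ g, c₂ g]).reverse

theorem one_update {K : Type} [DecidableEq K] (x y : List Bool) :
    update (one x : St (Option K)) none y = one y := by
  funext j; cases j <;> simp [one]

theorem read_steps {K G : Type} [DecidableEq K] (c₁ c₂ : G → Bool) (c : Cmd (Option K))
    (x : List G) : ∀ (acc : List Bool) (v : Var G), ∃ v' : Var G,
      Steps (mainCode c₁ c₂ c) (x.length + 1) ⟨some none, v, lift (one acc) x⟩
        ⟨some (some (some c.entry)), v', lift (one (rdCode c₁ c₂ x ++ acc)) []⟩ := by
  induction x with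
  | nil =>
    intro acc v
    refine ⟨(v.1, none), Steps.one _ _ _ ?_⟩
    have := lift_update_none (K := Option K) (G := G) (one acc) [] []
    simp only [rdCode, List.flatMap_nil, List.reverse_nil, List.nil_append]
    conv_rhs => rw [← this]
    rfl
  | cons g x ih =>
    intro acc v
    obtain ⟨v', h⟩ := ih (c₂ g :: c₁ g :: acc) (v.1, some g)
    refine ⟨v', ?_⟩
    have h₁ : Steps (mainCode c₁ c₂ c) 1 ⟨some none, v, lift (one acc) (g :: x)⟩
        ⟨some none, (v.1, some g), lift (one (c₂ g :: c₁ g :: acc)) x⟩ := by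
      apply Steps.one
      have e₁ := lift_update_none (K := Option K) (G := G) (one acc) (g :: x) x
      have e₂ := lift_update (K := Option K) (G := G) (one acc) x none (c₁ g :: acc)
      have e₃ := lift_update (K := Option K) (G := G) (one (c₁ g :: acc)) x none
        (c₂ g :: c₁ g :: acc)
      rw [one_update] at e₂ e₃
      rw [← e₃, ← e₂, ← e₁]
      rfl
    have := h₁.trans h
    simpa [rdCode, add_comm, add_left_comm] using this

theorem machine_outputs {K G : Type} [Fintype K] [DecidableEq K] [Fintype G] (c₁ c₂ : G → Bool)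
    (c : Cmd (Option K)) (x : List G) (y : List Bool) (t : ℕ)
    (h : Exec c (one (rdCode c₁ c₂ x)) (one y) t) :
    Nonempty (TM2OutputsInTime (machine c₁ c₂ c) x (some y) (x.length + 1 + t + 1)) := by
  obtain ⟨v₁, h₁⟩ := read_steps c₁ c₂ c x [] (none, none)
  rw [List.append_nil] at h₁
  obtain ⟨n, hn, v₂, h₂⟩ := h.sim (G := G) (mainCode c₁ c₂ c) (fun x => some (some x)) (some none)
    (fun _ => rfl) v₁
  have h₃ : Steps (mainCode c₁ c₂ c) 1 ⟨some (some none), v₂, lift (one y) []⟩
      ⟨none, (none, none), lift (one y) []⟩ := Steps.one _ _ _ rfl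
  have h₄ := (h₁.trans h₂).trans h₃
  have e₁ : initList (machine c₁ c₂ c) x = ⟨some none, (none, none), lift (one []) x⟩ := by
    unfold initList
    congr 1
    funext k
    rcases k with _ | _ | k <;> rfl
  have e₂ : haltList (machine c₁ c₂ c) y = ⟨none, (none, none), lift (one y) []⟩ := by
    unfold haltList
    congr 1
    funext k
    rcases k with _ | _ | k <;> rfl
  refine ⟨⟨⟨x.length + 1 + n + 1, ?_⟩, by show x.length + 1 + n + 1 ≤ _; omega⟩⟩
  rw [e₁, Option.map_some, e₂]
  exact h₄

end Crest.Agent.Lib.PolyTime
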