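import Crest.Agent.Lib.PolyTime.Cmd

/-!
Polynomial bounds `PB`, the raw polynomial-time predicate `PTR` and its closure properties
(proved by small stack programs).
-/

set_option autoImplicit false

namespace Crest.Agent.Lib.PolyTime

open Function

/-! ### Polynomial bounds -/

/-- `g` is bounded by a polynomial in `sz`. -/
def PBy {α : Type} (sz g : α → ℕ) : Prop := ∃ p : Polynomial ℕ, ∀ a, g a ≤ p.eval (sz a)

theorem poly_eval_mono (p : Polynomial ℕ) {m n : ℕ} (h : m ≤ n) : p.eval m ≤ p.eval n := by
  induction p using Polynomial.induction_on' with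
  | add p q hp hq => simp only [Polynomial.eval_add]; omega
  | monomial k c =>
    simp only [Polynomial.eval_monomial]
    exact Nat.mul_le_mul_left _ (Nat.pow_le_pow_left h _)

namespace PBy

variable {α : Type} {sz g h : α → ℕ}

theorem self : PBy sz sz := ⟨Polynomial.X, by simp⟩

theorem const (c : ℕ) : PBy sz fun _ => c := ⟨Polynomial.C c, by simp⟩

theorem add (hg : PBy sz g) (hh : PBy sz h) : PBy sz fun a => g a + h a := by
  obtain ⟨p, hp⟩ := hg; obtain ⟨q, hq⟩ := hh
  exact ⟨p + q, fun a => by simpa using Nat.add_le_add (hp a) (hq a)⟩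

theorem mul (hg : PBy sz g) (hh : PBy sz h) : PBy sz fun a => g a * h a := by
  obtain ⟨p, hp⟩ := hg; obtain ⟨q, hq⟩ := hh
  exact ⟨p * q, fun a => by simpa using Nat.mul_le_mul (hp a) (hq a)⟩

theorem of_le (hg : PBy sz g) (hh : ∀ a, h a ≤ g a) : PBy sz h := by
  obtain ⟨p, hp⟩ := hg
  exact ⟨p, fun a => (hh a).trans (hp a)⟩

theorem eval (p : Polynomial ℕ) (hg : PBy sz g) : PBy sz fun a => p.eval (g a) := by
  obtain ⟨q, hq⟩ := hg
  exact ⟨p.comp q, fun a => by rw [Polynomial.eval_comp]; exact poly_eval_mono p (hq a)⟩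

theorem trans (hg : PBy sz g) (hh : PBy g h) : PBy sz h := by
  obtain ⟨p, hp⟩ := hh
  exact (hg.eval p).of_le hp

theorem comp {β : Type} {sz' g' : β → ℕ} (hg : PBy sz' g') (f : α → β)
    (hf : PBy sz fun a => sz' (f a)) : PBy sz fun a => g' (f a) := by
  obtain ⟨p, hp⟩ := hg
  exact (hf.eval p).of_le fun a => hp (f a)

theorem pow (hg : PBy sz g) (k : ℕ) : PBy sz fun a => g a ^ k := by
  induction k with
  | zero => simpa using const 1
  | succ k ih => simpa [pow_succ] using ih.mul hg

end PBy

/-! ### Raw polynomial time -/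

/-- From the bit string `ea a` some program computes the bit string `F a` in polynomial time. -/
def PTR {α : Type} (ea F : α → List Bool) : Prop :=
  ∃ (K : Type) (_ : Fintype K) (_ : DecidableEq K) (c : Cmd (Option K)) (τ : α → ℕ),
    PBy (fun a => (ea a).length) τ ∧ ∀ a, Exec c (one (ea a)) (one (F a)) (τ a)

theorem PTR.length_pb {α : Type} {ea F : α → List Bool} (h : PTR ea F) :
    PBy (fun a => (ea a).length) fun a => (F a).length := by
  obtain ⟨K, _, _, c, τ, hτ, hc⟩ := h
  exact (PBy.self.add hτ).of_le fun a => (hc a).length_le none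

theorem PTR.congr {α : Type} {ea F G : α → List Bool} (h : PTR ea F) (e : ∀ a, F a = G a) :
    PTR ea G := (funext e : F = G) ▸ h

/-- Restriction along a reindexing of the inputs. -/
theorem PTR.restrict {α β : Type} {eb G : β → List Bool} (h : PTR eb G) (g : α → β) :
    PTR (fun a => eb (g a)) fun a => G (g a) := by
  obtain ⟨K, _, _, c, τ, ⟨p, hp⟩, hc⟩ := h
  exact ⟨K, inferInstance, inferInstance, c, fun a => τ (g a), ⟨p, fun a => hp (g a)⟩,
    fun a => hc (g a)⟩

theorem exec_weaken {K K' : Type} [DecidableEq K] [DecidableEq K'] {e : K → K'}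
    (he : Injective e) {c : Cmd (Option K)} {x y : List Bool} {t : ℕ}
    (h : Exec c (one x) (one y) t) : Exec (c.map (Option.map e)) (one x) (one y) t := by
  have he' : Injective (Option.map e) := Option.map_injective he
  have key : ∀ z : List Bool,
      Function.extend (Option.map e) (one z : St (Option K)) (one [] : St (Option K')) = one z := by
    intro z
    funext j
    cases j with
    | none => exact he'.extend_apply _ _ none
    | some j =>
      by_cases hj : ∃ a, Option.map e a = some j
      · obtain ⟨a, ha⟩ := hj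
        rw [← ha, he'.extend_apply]
        cases a with
        | none => simp at ha
        | some a => rfl
      · rw [Function.extend_apply' _ _ _ hj]; rfl
  have := h.map_extend he' (one [])
  rwa [key, key] at this

/-- States of programs with two extra registers. -/
def mk {K : Type} (x a b : List Bool) : St (Option (Bool ⊕ K))
  | none => x
  | some (Sum.inl false) => a
  | some (Sum.inl true) => b
  | some (Sum.inr _) => []

/-- First extra register. -/
abbrev rA {K : Type} : Option (Bool ⊕ K) := some (Sum.inl false)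
/-- Second extra register. -/
abbrev rB {K : Type} : Option (Bool ⊕ K) := some (Sum.inl true)

section Mk

variable {K : Type}

@[simp] theorem mk_io (x a b : List Bool) : (mk x a b : St (Option (Bool ⊕ K))) none = x := rfl
@[simp] theorem mk_A (x a b : List Bool) : (mk x a b : St (Option (Bool ⊕ K))) rA = a := rfl
@[simp] theorem mk_B (x a b : List Bool) : (mk x a b : St (Option (Bool ⊕ K))) rB = b := rfl

theorem mk_nil (x : List Bool) : (mk x [] [] : St (Option (Bool ⊕ K))) = one x := by
  funext j; rcases j with _ | (_ | _) | _ <;> rfl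

variable [DecidableEq K]

@[simp] theorem mk_upd_io (x a b y : List Bool) :
    update (mk x a b : St (Option (Bool ⊕ K))) none y = mk y a b := by
  funext j; rcases j with _ | (_ | _) | _ <;> simp [mk]

@[simp] theorem mk_upd_A (x a b y : List Bool) :
    update (mk x a b : St (Option (Bool ⊕ K))) rA y = mk x y b := by
  funext j; rcases j with _ | (_ | _) | _ <;> simp [mk]

@[simp] theorem mk_upd_B (x a b y : List Bool) :
    update (mk x a b : St (Option (Bool ⊕ K))) rB y = mk x a y := by
  funext j; rcases j with _ | (_ | _) | _ <;> simp [mk]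

/-- Run a subprogram on the main stack, keeping the two extra registers. -/
def sub (c : Cmd (Option K)) : Cmd (Option (Bool ⊕ K)) := c.map (Option.map Sum.inr)

theorem exec_sub {c : Cmd (Option K)} {x y : List Bool} {t : ℕ} (h : Exec c (one x) (one y) t)
    (a b : List Bool) : Exec (sub c) (mk x a b) (mk y a b) t := by
  have he' : Injective (Option.map (Sum.inr : K → Bool ⊕ K)) :=
    Option.map_injective Sum.inr_injective
  have key : ∀ z : List Bool, Function.extend (Option.map Sum.inr) (one z : St (Option K))
      (mk [] a b : St (Option (Bool ⊕ K))) = mk z a b := by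
    intro z
    funext j
    rcases j with _ | j | j
    · exact he'.extend_apply _ _ none
    · rw [Function.extend_apply']
      · cases j <;> rfl
      · rintro ⟨_ | _, h⟩ <;> simp at h
    · exact he'.extend_apply _ _ (some j)
  have := h.map_extend he' (mk [] a b)
  rwa [key, key] at this

theorem push_io (x a b : List Bool) (d : Bool) :
    Exec (.push none d) (mk x a b : St (Option (Bool ⊕ K))) (mk (d :: x) a b) 1 :=
  (Exec.push _ _ _).cast (by simp) le_rfl

theorem push_A (x a b : List Bool) (d : Bool) :
    Exec (.push rA d) (mk x a b : St (Option (Bool ⊕ K))) (mk x (d :: a) b) 1 :=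
  (Exec.push _ _ _).cast (by simp) le_rfl

theorem push_B (x a b : List Bool) (d : Bool) :
    Exec (.push rB d) (mk x a b : St (Option (Bool ⊕ K))) (mk x a (d :: b)) 1 :=
  (Exec.push _ _ _).cast (by simp) le_rfl

theorem case_io_N {cN cF cT : Cmd (Option (Bool ⊕ K))} {a b : List Bool} {s' : St _} {t : ℕ}
    (h : Exec cN (mk [] a b) s' t) : Exec (.case none cN cF cT) (mk [] a b) s' (t + 1) :=
  .caseN rfl h

theorem case_io_F {cN cF cT : Cmd (Option (Bool ⊕ K))} {r a b : List Bool} {s' : St _} {t : ℕ}
    (h : Exec cF (mk r a b) s' t) : Exec (.case none cN cF cT) (mk (false :: r) a b) s' (t + 1) :=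
  .caseF (r := r) rfl (by rwa [mk_upd_io])

theorem case_io_T {cN cF cT : Cmd (Option (Bool ⊕ K))} {r a b : List Bool} {s' : St _} {t : ℕ}
    (h : Exec cT (mk r a b) s' t) : Exec (.case none cN cF cT) (mk (true :: r) a b) s' (t + 1) :=
  .caseT (r := r) rfl (by rwa [mk_upd_io])

theorem case_A_F {cN cF cT : Cmd (Option (Bool ⊕ K))} {x r b : List Bool} {s' : St _} {t : ℕ}
    (h : Exec cF (mk x r b) s' t) : Exec (.case rA cN cF cT) (mk x (false :: r) b) s' (t + 1) :=
  .caseF (r := r) rfl (by rwa [mk_upd_A])

theorem case_A_T {cN cF cT : Cmd (Option (Bool ⊕ K))} {x r b : List Bool} {s' : St _} {t : ℕ}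
    (h : Exec cT (mk x r b) s' t) : Exec (.case rA cN cF cT) (mk x (true :: r) b) s' (t + 1) :=
  .caseT (r := r) rfl (by rwa [mk_upd_A])

theorem loop_A_N {cF cT : Cmd (Option (Bool ⊕ K))} (x b : List Bool) :
    Exec (.loop rA cF cT) (mk x [] b) (mk x [] b) 1 := .loopN rfl

theorem loop_A_T {cF cT : Cmd (Option (Bool ⊕ K))} {x r b : List Bool} {s' s'' : St _} {t t' : ℕ}
    (h : Exec cT (mk x r b) s' t) (h' : Exec (.loop rA cF cT) s' s'' t') :
    Exec (.loop rA cF cT) (mk x (true :: r) b) s'' (t + t' + 1) :=
  .loopT (r := r) rfl (by rwa [mk_upd_A]) h'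

/-- Generic rule for loops that consume a stack and act by a uniform-cost body. -/
theorem exec_loop {K' : Type} [DecidableEq K'] {k : K'} {cF cT : Cmd K'} {γ : Type}
    (st : List Bool → γ → St K') (f : Bool → γ → γ) (t : ℕ) (P : List Bool → γ → Prop)
    (hk : ∀ l g, st l g k = l) (hu : ∀ l r g, update (st l g) k r = st r g)
    (hP : ∀ d l g, P (d :: l) g → P l (f d g))
    (hF : ∀ l g, P (false :: l) g → Exec cF (st l g) (st l (f false g)) t)
    (hT : ∀ l g, P (true :: l) g → Exec cT (st l g) (st l (f true g)) t) :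
    ∀ (l : List Bool) (g : γ), P l g →
      Exec (.loop k cF cT) (st l g) (st [] (l.foldl (fun g d => f d g) g))
        (l.length * (t + 1) + 1) := by
  intro l
  induction l with
  | nil => intro g _; exact (Exec.loopN (hk _ _)).mono (by simp)
  | cons d l ih =>
    intro g hg
    have h₂ := ih (f d g) (hP d l g hg)
    cases d with
    | false =>
      exact (Exec.loopF (hk _ _) (by rw [hu]; exact hF l g hg) h₂).cast rfl
        (by simp only [List.length_cons]; nlinarith)
    | true =>
      exact (Exec.loopT (hk _ _) (by rw [hu]; exact hT l g hg) h₂).cast rfl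
        (by simp only [List.length_cons]; nlinarith)

theorem foldl_cons_eq (l g : List Bool) :
    l.foldl (fun g d => d :: g) g = l.reverse ++ g := by
  induction l generalizing g with
  | nil => rfl
  | cons d l ih => simp [ih]

/-- Move stack `i` onto stack `j` (reversing it). -/
def move {K' : Type} (i j : K') : Cmd K' := .loop i (.push j false) (.push j true)

theorem move_A_io (x a b : List Bool) : Exec (move rA none)
    (mk x a b : St (Option (Bool ⊕ K))) (mk (a.reverse ++ x) [] b) (a.length * 2 + 1) := by
  have := exec_loop (k := (rA : Option (Bool ⊕ K))) (cF := .push none false)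
    (cT := .push none true) (fun l g => mk g l b) (fun d g => d :: g) 1 (fun _ _ => True)
    (by simp) (by simp) (by simp) (fun l g _ => push_io _ _ _ _) (fun l g _ => push_io _ _ _ _)
    a x trivial
  rwa [foldl_cons_eq] at this

theorem move_B_io (x a b : List Bool) : Exec (move rB none)
    (mk x a b : St (Option (Bool ⊕ K))) (mk (b.reverse ++ x) a []) (b.length * 2 + 1) := by
  have := exec_loop (k := (rB : Option (Bool ⊕ K))) (cF := .push none false)
    (cT := .push none true) (fun l g => mk g a l) (fun d g => d :: g) 1 (fun _ _ => True)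
    (by simp) (by simp) (by simp) (fun l g _ => push_io _ _ _ _) (fun l g _ => push_io _ _ _ _)
    b x trivial
  rwa [foldl_cons_eq] at this

theorem move_io_A (x a b : List Bool) : Exec (move none rA)
    (mk x a b : St (Option (Bool ⊕ K))) (mk [] (x.reverse ++ a) b) (x.length * 2 + 1) := by
  have := exec_loop (k := (none : Option (Bool ⊕ K))) (cF := .push rA false)
    (cT := .push rA true) (fun l g => mk l g b) (fun d g => d :: g) 1 (fun _ _ => True)
    (by simp) (by simp) (by simp) (fun l g _ => push_A _ _ _ _) (fun l g _ => push_A _ _ _ _)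
    x a trivial
  rwa [foldl_cons_eq] at this

theorem move_A_B (x a b : List Bool) : Exec (move rA rB)
    (mk x a b : St (Option (Bool ⊕ K))) (mk x [] (a.reverse ++ b)) (a.length * 2 + 1) := by
  have := exec_loop (k := (rA : Option (Bool ⊕ K))) (cF := .push rB false)
    (cT := .push rB true) (fun l g => mk x l g) (fun d g => d :: g) 1 (fun _ _ => True)
    (by simp) (by simp) (by simp) (fun l g _ => push_B _ _ _ _) (fun l g _ => push_B _ _ _ _)
    a b trivial
  rwa [foldl_cons_eq] at this

/-- Empty a stack. -/
def clear {K' : Type} (i : K') : Cmd K' := .loop i .skip .skip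

theorem foldl_unit (l : List Bool) (g : Unit) : l.foldl (fun g _ => g) g = () := rfl

theorem clear_io (x a b : List Bool) : Exec (clear none)
    (mk x a b : St (Option (Bool ⊕ K))) (mk [] a b) (x.length * 2 + 1) :=
  exec_loop (k := (none : Option (Bool ⊕ K))) (cF := .skip)
    (cT := .skip) (fun l (_ : Unit) => mk l a b) (fun _ g => g) 1 (fun _ _ => True)
    (by simp) (by simp) (by simp) (fun _ _ _ => .skip _) (fun _ _ _ => .skip _) x () trivial

theorem clear_B (x a b : List Bool) : Exec (clear rB)
    (mk x a b : St (Option (Bool ⊕ K))) (mk x a []) (b.length * 2 + 1) :=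
  exec_loop (k := (rB : Option (Bool ⊕ K))) (cF := .skip)
    (cT := .skip) (fun l (_ : Unit) => mk x a l) (fun _ g => g) 1 (fun _ _ => True)
    (by simp) (by simp) (by simp) (fun _ _ _ => .skip _) (fun _ _ _ => .skip _) b () trivial

/-- Save a reversed copy of the main stack in the second register. -/
def save : Cmd (Option (Bool ⊕ K)) :=
  .seq (.loop none (.seq (.push rA false) (.push rB false)) (.seq (.push rA true) (.push rB true)))
    (move rA none)

theorem exec_save (x : List Bool) : Exec save
    (mk x [] [] : St (Option (Bool ⊕ K))) (mk x [] x.reverse) (x.length * 5 + 2) := by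
  have h₁ := exec_loop (k := (none : Option (Bool ⊕ K)))
    (cF := .seq (.push rA false) (.push rB false)) (cT := .seq (.push rA true) (.push rB true))
    (fun l g => mk l g g) (fun d g => d :: g) 2 (fun _ _ => True)
    (by simp) (by simp) (by simp) (fun l g _ => (push_A _ _ _ _).seq (push_B _ _ _ _))
    (fun l g _ => (push_A _ _ _ _).seq (push_B _ _ _ _)) x [] trivial
  rw [foldl_cons_eq] at h₁
  exact (h₁.seq (move_A_io _ _ _)).cast (by simp) (by simp; omega)

end Mk

/-- Raw pairing of bit strings. -/
def pairR (x y : List Bool) : List Bool := (x.flatMap fun d => [true, d]) ++ false :: y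

@[simp] theorem pairR_nil (y : List Bool) : pairR [] y = false :: y := rfl

@[simp] theorem pairR_cons (d : Bool) (x y : List Bool) :
    pairR (d :: x) y = true :: d :: pairR x y := rfl

@[simp] theorem length_pairR (x y : List Bool) :
    (pairR x y).length = 2 * x.length + 1 + y.length := by
  induction x with
  | nil => simp; omega
  | cons d x ih => simp [ih]; omega

/-- Total left inverse of `pairR`. -/
def splitR : List Bool → List Bool × List Bool
  | [] => ([], [])
  | false :: y => ([], y)
  | [true] => ([], [])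
  | true :: d :: r => (d :: (splitR r).1, (splitR r).2)

@[simp] theorem splitR_pairR (x y : List Bool) : splitR (pairR x y) = (x, y) := by
  induction x with
  | nil => rfl
  | cons d x ih => simp [splitR, ih]

@[simp] theorem splitR_nil : splitR [] = ([], []) := rfl

theorem length_splitR (z : List Bool) :
    (splitR z).1.length ≤ z.length ∧ (splitR z).2.length ≤ z.length := by
  fun_induction splitR z with
  | case4 d r ih => simp only [List.length_cons]; omega
  | _ => simp

section Split

variable {K : Type} [DecidableEq K]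

/-- Body of the splitting loop. -/
def splitBody : Cmd (Option (Bool ⊕ K)) :=
  .case none .skip .skip (.case none .skip (.seq (.push rB false) (.push rA true))
    (.seq (.push rB true) (.push rA true)))

/-- Split a raw pair: the first component goes (reversed) to the second register. -/
def split : Cmd (Option (Bool ⊕ K)) := .seq (.push rA true) (.loop rA splitBody splitBody)

theorem exec_splitLoop (z : List Bool) : ∀ b : List Bool,
    Exec (.loop rA splitBody splitBody) (mk z [true] b : St (Option (Bool ⊕ K)))
      (mk (splitR z).2 [] ((splitR z).1.reverse ++ b)) (z.length * 5 + 5) := by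
  fun_induction splitR z with
  | case1 =>
    intro b
    exact (loop_A_T (case_io_N (.skip _)) (loop_A_N _ _)).cast (by simp) (by simp)
  | case2 y =>
    intro b
    exact (loop_A_T (case_io_F (.skip _)) (loop_A_N _ _)).cast (by simp) (by simp)
  | case3 =>
    intro b
    exact (loop_A_T (case_io_T (case_io_N (.skip _))) (loop_A_N _ _)).cast (by simp) (by simp)
  | case4 d r ih =>
    intro b
    have h₂ := ih (d :: b)
    cases d with
    | false =>
      exact (loop_A_T (case_io_T (case_io_F ((push_B _ _ _ _).seq (push_A _ _ _ _)))) h₂).cast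
        (by simp) (by simp; omega)
    | true =>
      exact (loop_A_T (case_io_T (case_io_T ((push_B _ _ _ _).seq (push_A _ _ _ _)))) h₂).cast
        (by simp) (by simp; omega)

theorem exec_split (z : List Bool) :
    Exec split (mk z [] [] : St (Option (Bool ⊕ K)))
      (mk (splitR z).2 [] (splitR z).1.reverse) (z.length * 5 + 6) :=
  ((push_A _ _ _ _).seq (exec_splitLoop z [])).cast (by simp) (by omega)

end Split

namespace PTR

variable {α : Type} {ea F G : α → List Bool}

theorem refl (ea : α → List Bool) : PTR ea ea :=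
  ⟨Unit, inferInstance, inferInstance, .skip, fun _ => 1, PBy.const 1, fun _ => .skip _⟩

theorem trans (h₁ : PTR ea F) (h₂ : PTR F G) : PTR ea G := by
  have hl := h₁.length_pb
  obtain ⟨K₁, _, _, c₁, τ₁, hτ₁, hc₁⟩ := h₁
  obtain ⟨K₂, _, _, c₂, τ₂, hτ₂, hc₂⟩ := h₂
  exact ⟨K₁ ⊕ K₂, inferInstance, inferInstance,
    .seq (c₁.map (Option.map Sum.inl)) (c₂.map (Option.map Sum.inr)), fun a => τ₁ a + τ₂ a,
    hτ₁.add (hl.trans hτ₂), fun a =>
      (exec_weaken Sum.inl_injective (hc₁ a)).seq (exec_weaken Sum.inr_injective (hc₂ a))⟩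

/-- Post-compose with a raw function of bit strings. -/
theorem raw {H : List Bool → List Bool} (hH : PTR id H) (h : PTR ea F) :
    PTR ea fun a => H (F a) := h.trans (hH.restrict F)

/-- A program on the layout with two extra registers and no subprogram. -/
theorem of_mk (c : Cmd (Option (Bool ⊕ Unit))) (H : List Bool → List Bool) (m : ℕ)
    (h : ∀ x, Exec c (mk x [] []) (mk (H x) [] []) (x.length * m + m)) : PTR id H :=
  ⟨Bool ⊕ Unit, inferInstance, inferInstance, c, fun x => x.length * m + m,
    (PBy.self.mul (PBy.const m)).add (PBy.const m), fun x => by simpa [mk_nil] using h x⟩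

theorem cons (d : Bool) : PTR id (d :: ·) :=
  of_mk (.push none d) _ 1 fun _ => (push_io _ _ _ _).mono (by omega)

theorem tail : PTR id List.tail :=
  of_mk (.case none .skip .skip .skip) _ 2 fun x => by
    rcases x with _ | ⟨_ | _, r⟩
    · exact (case_io_N (.skip _)).mono (by omega)
    · exact (case_io_F (.skip _)).mono (by omega)
    · exact (case_io_T (.skip _)).mono (by omega)

theorem nil : PTR id fun _ => [] :=
  of_mk (clear none) _ 2 fun _ => (clear_io _ _ _).mono (by omega)

theorem headTest (φ : Option Bool → Bool) : PTR id fun x => [φ x.head?] :=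
  of_mk (.seq (.seq (.case none (.push rA (φ none)) (.push rA (φ (some false)))
      (.push rA (φ (some true)))) (clear none)) (move rA none)) _ 7 fun x => by
    rcases x with _ | ⟨_ | _, r⟩
    · exact (((case_io_N (push_A _ _ _ _)).seq (clear_io _ _ _)).seq
        (move_A_io _ _ _)).cast (by simp) (by simp)
    · exact (((case_io_F (push_A _ _ _ _)).seq (clear_io _ _ _)).seq
        (move_A_io _ _ _)).cast (by simp) (by simp; omega)
    · exact (((case_io_T (push_A _ _ _ _)).seq (clear_io _ _ _)).seq
        (move_A_io _ _ _)).cast (by simp) (by simp; omega)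

theorem reverse : PTR id List.reverse :=
  of_mk (.seq (.seq (move none rA) (move rA rB)) (move rB none)) _ 6 fun x =>
    (((move_io_A _ _ _).seq (move_A_B _ _ _)).seq (move_B_io _ _ _)).cast (by simp)
      (by simp; omega)

theorem fstR : PTR id fun z => (splitR z).1 :=
  of_mk (.seq (.seq split (clear none)) (move rB none)) _ 9 fun z =>
    (((exec_split z).seq (clear_io _ _ _)).seq (move_B_io _ _ _)).cast (by simp)
      (by have := length_splitR z; simp; omega)

theorem sndR : PTR id fun z => (splitR z).2 :=
  of_mk (.seq split (clear rB)) _ 7 fun z =>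
    ((exec_split z).seq (clear_B _ _ _)).cast (by simp)
      (by have := length_splitR z; simp; omega)

theorem const (ea : α → List Bool) (y : List Bool) : PTR ea fun _ => y := by
  induction y with
  | nil => exact nil.raw (refl ea)
  | cons d y ih => exact (cons d).raw ih

theorem foldl_pair (l g : List Bool) :
    l.foldl (fun g d => true :: d :: g) g = (l.reverse.flatMap fun d => [true, d]) ++ g := by
  induction l generalizing g with
  | nil => rfl
  | cons d l ih => simp [ih]

theorem pair (h₁ : PTR ea F) (h₂ : PTR ea G) : PTR ea fun a => pairR (F a) (G a) := by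
  have hl := h₁.length_pb
  obtain ⟨K₁, _, _, c₁, τ₁, hτ₁, hc₁⟩ := h₁
  obtain ⟨K₂, _, _, c₂, τ₂, hτ₂, hc₂⟩ := h₂
  refine ⟨Bool ⊕ (K₁ ⊕ K₂), inferInstance, inferInstance,
    .seq (.seq (.seq (.seq (.seq (.seq save (sub (c₁.map (Option.map Sum.inl)))) (move none rA))
      (move rB none)) (sub (c₂.map (Option.map Sum.inr)))) (.push none false))
      (.loop rA (.seq (.push none false) (.push none true))
        (.seq (.push none true) (.push none true))),
    fun a => (ea a).length * 7 + τ₁ a + τ₂ a + (F a).length * 5 + 10,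
    ((((PBy.self.mul (PBy.const 7)).add hτ₁).add hτ₂).add (hl.mul (PBy.const 5))).add
      (PBy.const 10), fun a => ?_⟩
  have h₇ := exec_loop (k := (rA : Option (Bool ⊕ (K₁ ⊕ K₂))))
    (cF := .seq (.push none false) (.push none true))
    (cT := .seq (.push none true) (.push none true))
    (fun l g => mk g l []) (fun d g => true :: d :: g) 2 (fun _ _ => True)
    (by simp) (by simp) (by simp) (fun l g _ => (push_io _ _ _ _).seq (push_io _ _ _ _))
    (fun l g _ => (push_io _ _ _ _).seq (push_io _ _ _ _)) (F a).reverse (false :: G a) trivial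
  rw [foldl_pair, List.reverse_reverse] at h₇
  have h₃ := move_io_A (K := K₁ ⊕ K₂) (F a) [] (ea a).reverse
  have h₄ := move_B_io (K := K₁ ⊕ K₂) [] (F a).reverse (ea a).reverse
  simp only [List.append_nil, List.reverse_reverse] at h₃ h₄
  rw [← mk_nil, ← mk_nil]
  exact (((((((exec_save (ea a)).seq (exec_sub (exec_weaken Sum.inl_injective (hc₁ a)) _ _)).seq
    h₃).seq h₄).seq (exec_sub (exec_weaken Sum.inr_injective (hc₂ a)) _ _)).seq
    (push_io _ _ _ _)).seq h₇).cast rfl (by simp; omega)

theorem cond {c : α → Bool} (h₀ : PTR ea fun a => [c a]) (h₁ : PTR ea F) (h₂ : PTR ea G) :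
    PTR ea fun a => bif c a then F a else G a := by
  obtain ⟨K₀, _, _, c₀, τ₀, hτ₀, hc₀⟩ := h₀
  obtain ⟨K₁, _, _, c₁, τ₁, hτ₁, hc₁⟩ := h₁
  obtain ⟨K₂, _, _, c₂, τ₂, hτ₂, hc₂⟩ := h₂
  refine ⟨Bool ⊕ (K₀ ⊕ K₁ ⊕ K₂), inferInstance, inferInstance,
    .seq (.seq (.seq (.seq save (sub (c₀.map (Option.map Sum.inl)))) (move none rA))
      (move rB none))
      (.case rA .skip (sub (c₂.map (Option.map (Sum.inr ∘ Sum.inr))))
        (sub (c₁.map (Option.map (Sum.inr ∘ Sum.inl))))),
    fun a => (ea a).length * 7 + τ₀ a + τ₁ a + τ₂ a + 10,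
    ((((PBy.self.mul (PBy.const 7)).add hτ₀).add hτ₁).add hτ₂).add
      (PBy.const 10), fun a => ?_⟩
  have h₃ := move_io_A (K := K₀ ⊕ K₁ ⊕ K₂) [c a] [] (ea a).reverse
  have h₄ := move_B_io (K := K₀ ⊕ K₁ ⊕ K₂) [] [c a] (ea a).reverse
  simp only [List.append_nil, List.reverse_reverse, List.reverse_singleton] at h₃ h₄
  have h₅ : Exec (.case rA .skip (sub (c₂.map (Option.map (Sum.inr ∘ Sum.inr))))
        (sub (c₁.map (Option.map (Sum.inr ∘ Sum.inl)))))
        (mk (ea a) [c a] [] : St (Option (Bool ⊕ (K₀ ⊕ K₁ ⊕ K₂))))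
        (mk (bif c a then F a else G a) [] []) (τ₁ a + τ₂ a + 1) := by
    cases hca : c a with
    | false =>
      exact (case_A_F (exec_sub (exec_weaken (Sum.inr_injective.comp Sum.inr_injective)
        (hc₂ a)) [] [])).mono (by omega)
    | true =>
      exact (case_A_T (exec_sub (exec_weaken (Sum.inr_injective.comp Sum.inl_injective)
        (hc₁ a)) [] [])).mono (by omega)
  rw [← mk_nil, ← mk_nil]
  exact (((((exec_save (ea a)).seq (exec_sub (exec_weaken Sum.inl_injective (hc₀ a)) _ _)).seq
    h₃).seq h₄).seq h₅).cast rfl (by simp; omega)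

theorem foldl_iterate {σ : Type} (step : σ → σ) (l : List Bool) (s : σ) :
    l.foldl (fun g _ => step g) s = step^[l.length] s := by
  induction l generalizing s with
  | nil => rfl
  | cons d l ih => simp [ih]

/-- Bounded iteration: the counter is the length of the raw string `N a`. -/
theorem iter {σ : Type} {es : σ → List Bool} {step : σ → σ} (hs : PTR es fun s => es (step s))
    {N : α → List Bool} {s₀ : α → σ} (hN : PTR ea N) (h₀ : PTR ea fun a => es (s₀ a))
    {B : α → ℕ} (hB : PBy (fun a => (ea a).length) B)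
    (hsz : ∀ a i, i ≤ (N a).length → (es (step^[i] (s₀ a))).length ≤ B a) :
    PTR ea fun a => es (step^[(N a).length] (s₀ a)) := by
  have hNl := hN.length_pb
  have hp := hN.pair h₀
  have hpl := hp.length_pb
  obtain ⟨K₁, _, _, c₁, τ₁, hτ₁, hc₁⟩ := hp
  obtain ⟨K₂, _, _, c₂, τ₂, ⟨p, hp⟩, hc₂⟩ := hs
  refine ⟨Bool ⊕ (K₁ ⊕ K₂), inferInstance, inferInstance,
    .seq (.seq (sub (c₁.map (Option.map Sum.inl))) split)
      (.loop rB (sub (c₂.map (Option.map Sum.inr))) (sub (c₂.map (Option.map Sum.inr)))),
    fun a => τ₁ a + ((pairR (N a) (es (s₀ a))).length * 5 + 6) +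
      ((N a).length * (p.eval (B a) + 1) + 1),
    (hτ₁.add ((hpl.mul (PBy.const 5)).add (PBy.const 6))).add
      ((hNl.mul ((hB.eval p).add (PBy.const 1))).add (PBy.const 1)), fun a => ?_⟩
  have hbody : ∀ (l : List Bool) (g : σ), (es g).length ≤ B a →
      Exec (sub (c₂.map (Option.map Sum.inr))) (mk (es g) [] l : St (Option (Bool ⊕ (K₁ ⊕ K₂))))
        (mk (es (step g)) [] l) (p.eval (B a)) := fun l g hg =>
    (exec_sub (exec_weaken Sum.inr_injective (hc₂ g)) _ _).mono
      ((hp g).trans (poly_eval_mono p hg))
  have h₃ := exec_loop (k := (rB : Option (Bool ⊕ (K₁ ⊕ K₂))))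
    (cF := sub (c₂.map (Option.map Sum.inr))) (cT := sub (c₂.map (Option.map Sum.inr)))
    (fun l g => mk (es g) [] l) (fun _ g => step g) (p.eval (B a))
    (fun l g => ∃ i, i + l.length = (N a).length ∧ g = step^[i] (s₀ a))
    (by simp) (by simp)
    (by
      rintro d l g ⟨i, hi, rfl⟩
      exact ⟨i + 1, by simp at hi; omega, by rw [iterate_succ_apply']⟩)
    (by
      rintro l g ⟨i, hi, rfl⟩
      exact hbody l _ (hsz a i (by omega)))
    (by
      rintro l g ⟨i, hi, rfl⟩
      exact hbody l _ (hsz a i (by omega)))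
    (N a).reverse (s₀ a) ⟨0, by simp, rfl⟩
  rw [foldl_iterate, List.length_reverse] at h₃
  have h₂ := exec_split (K := K₁ ⊕ K₂) (pairR (N a) (es (s₀ a)))
  rw [splitR_pairR] at h₂
  rw [← mk_nil, ← mk_nil]
  exact (((exec_sub (exec_weaken Sum.inl_injective (hc₁ a)) _ _).seq h₂).seq h₃).cast rfl le_rfl

/-- Bridge to Mathlib's machines. -/
theorem toTM2 {β G' : Type} [Fintype G'] (c₁ c₂ : G' → Bool) (e : α → List G')
    (eb : β → List Bool) (f : α → β)
    (h : PTR (fun a => rdCode c₁ c₂ (e a)) fun a => eb (f a)) :
    Nonempty (Turing.TM2ComputableInPolyTime e eb f) := by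
  obtain ⟨K, _, _, c, τ, ⟨p, hp⟩, hc⟩ := h
  refine ⟨⟨⟨machine c₁ c₂ c, Equiv.refl _, Equiv.refl _⟩,
    Polynomial.X + 1 + p.comp (2 * Polynomial.X) + 1, fun a => ?_⟩⟩
  have hl : (rdCode c₁ c₂ (e a)).length = 2 * (e a).length := by
    unfold rdCode
    induction e a with
    | nil => rfl
    | cons g x ih => simp at ih ⊢; omega
  have hp' : τ a ≤ p.eval (2 * (e a).length) := by rw [← hl]; exact hp a
  have h := Classical.choice (machine_outputs c₁ c₂ c (e a) (eb (f a)) _ ((hc a).mono hp'))
  have e₁ : List.map (Equiv.refl G').invFun (e a) = e a := List.map_id' _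
  have e₂ : List.map (Equiv.refl Bool).invFun (eb (f a)) = eb (f a) := List.map_id' _
  have e₃ : (Polynomial.X + 1 + p.comp (2 * Polynomial.X) + 1 : Polynomial ℕ).eval (e a).length =
      (e a).length + 1 + p.eval (2 * (e a).length) + 1 := by
    simp [Polynomial.eval_comp]
  rw [e₃]
  exact e₁.symm ▸ e₂.symm ▸ h

end PTR

end Crest.Agent.Lib.PolyTime
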