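import Crest.Agent.Lib.PolyTime.Core

/-!
The typed polynomial-time predicate `PT`: values are presented through the class `Enc`
(`ℕ` in unary, pairs, lists, `Bool`, raw strings; `ℤ` in binary is in `Int.lean`).
-/

set_option autoImplicit false

namespace Crest.Agent.Lib.PolyTime

open Function

/-- A presentation of values as bit strings. -/
class Enc (α : Type) where
  /-- the code of a value -/
  enc : α → List Bool

export Enc (enc)

/-- A bit string presented as itself. -/
structure Raw where
  /-- the bits -/
  bits : List Bool

instance : Enc Raw := ⟨Raw.bits⟩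
instance : Enc Bool := ⟨fun b => [b]⟩
instance : Enc Unit := ⟨fun _ => []⟩
instance : Enc ℕ := ⟨fun n => List.replicate n true⟩
instance {α β : Type} [Enc α] [Enc β] : Enc (α × β) := ⟨fun p => pairR (enc p.1) (enc p.2)⟩

/-- Code of a list. -/
def encList {α : Type} [Enc α] : List α → List Bool
  | [] => []
  | a :: l => pairR (enc a) (encList l)

instance {α : Type} [Enc α] : Enc (List α) := ⟨encList⟩

/-- Length of the code. -/
def size {α : Type} [Enc α] (a : α) : ℕ := (enc a).length

section EncSimp

variable {α β : Type} [Enc α] [Enc β]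

@[simp] theorem enc_raw (r : Raw) : enc r = r.bits := rfl
theorem enc_bool (b : Bool) : enc b = [b] := rfl
theorem enc_nat (n : ℕ) : enc n = List.replicate n true := rfl
theorem enc_prod (p : α × β) : enc p = pairR (enc p.1) (enc p.2) := rfl
theorem enc_nil : enc ([] : List α) = [] := rfl
theorem enc_cons (a : α) (l : List α) : enc (a :: l) = pairR (enc a) (enc l) := rfl

@[simp] theorem size_raw (r : Raw) : size r = r.bits.length := rfl
@[simp] theorem size_bool (b : Bool) : size b = 1 := rfl
@[simp] theorem size_unit (b : Unit) : size b = 0 := rfl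
@[simp] theorem size_nat (n : ℕ) : size n = n := by simp [size, enc_nat]
@[simp] theorem size_prod (a : α) (b : β) : size (a, b) = 2 * size a + 1 + size b := by
  simp [size, enc_prod]
theorem size_prod' (p : α × β) : size p = 2 * size p.1 + 1 + size p.2 := size_prod _ _
@[simp] theorem size_nil : size ([] : List α) = 0 := rfl
@[simp] theorem size_cons (a : α) (l : List α) : size (a :: l) = 2 * size a + 1 + size l := by
  simp [size, enc_cons]

@[simp] theorem size_append (l l' : List α) : size (l ++ l') = size l + size l' := by
  induction l with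
  | nil => simp
  | cons a l ih => simp [ih]; omega

@[simp] theorem size_reverse (l : List α) : size l.reverse = size l := by
  induction l with
  | nil => simp
  | cons a l ih => simp [ih]; omega

theorem length_le_size (l : List α) : l.length ≤ size l := by
  induction l with
  | nil => simp
  | cons a l ih => simp; omega

theorem size_le_of_mem {l : List α} {a : α} (h : a ∈ l) : size a ≤ size l := by
  induction l with
  | nil => simp at h
  | cons b l ih =>
    rcases List.mem_cons.1 h with rfl | h
    · simp; omega
    · have := ih h; simp; omega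

theorem size_le_of_sublist {l l' : List α} (h : l.Sublist l') : size l ≤ size l' := by
  induction h with
  | slnil => simp
  | cons a _ ih => simp; omega
  | cons_cons a _ ih => simp; omega

theorem size_list_le {l : List α} {m : ℕ} (h : ∀ a ∈ l, size a ≤ m) :
    size l ≤ l.length * (2 * m + 1) := by
  induction l with
  | nil => simp
  | cons b l ih =>
    have h₁ := ih fun a ha => h a (List.mem_cons_of_mem _ ha)
    have h₂ := h b List.mem_cons_self
    simp only [size_cons, List.length_cons]; nlinarith

theorem size_list_bool (l : List Bool) : size l = 3 * l.length := by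
  induction l with
  | nil => simp
  | cons b l ih => simp [ih]; omega

end EncSimp

/-- `f` is computable in polynomial time with respect to the `Enc` presentations. -/
@[fun_prop] def PT {α β : Type} [Enc α] [Enc β] (f : α → β) : Prop :=
  PTR (enc : α → List Bool) fun a => enc (f a)

/-- `g` is bounded by a polynomial in the size of the argument. -/
@[fun_prop] def PB {α : Type} [Enc α] (g : α → ℕ) : Prop := PBy size g

variable {α β γ σ : Type} [Enc α] [Enc β] [Enc γ] [Enc σ]

namespace PB

@[fun_prop] theorem const (c : ℕ) : PB fun _ : α => c := PBy.const c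
@[fun_prop] theorem id' : PB fun n : ℕ => n := PBy.self.of_le (by simp)
@[fun_prop] theorem add {g h : α → ℕ} (hg : PB g) (hh : PB h) : PB fun a => g a + h a :=
  PBy.add hg hh
@[fun_prop] theorem mul {g h : α → ℕ} (hg : PB g) (hh : PB h) : PB fun a => g a * h a :=
  PBy.mul hg hh
@[fun_prop] theorem pow {g : α → ℕ} (hg : PB g) (k : ℕ) : PB fun a => g a ^ k := PBy.pow hg k
theorem of_le {g h : α → ℕ} (hg : PB g) (hh : ∀ a, h a ≤ g a) : PB h := PBy.of_le hg hh

@[fun_prop] theorem size {f : α → β} (hf : PT f) : PB fun a => size (f a) := hf.length_pb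

theorem of_PT {f : α → ℕ} (hf : PT f) : PB f := (PB.size hf).of_le (by simp)

theorem comp {g : β → ℕ} {f : α → β} (hg : PB g) (hf : PT f) : PB fun a => g (f a) :=
  PBy.comp hg f (PB.size hf)

@[fun_prop] theorem length {f : α → List β} (hf : PT f) : PB fun a => (f a).length :=
  (PB.size hf).of_le fun _ => length_le_size _

end PB

namespace PT

theorem of_eq {f g : α → β} (h : PT f) (e : ∀ a, f a = g a) : PT g := (funext e : f = g) ▸ h

/-- Change of output type along equal codes. -/
theorem of_enc {f : α → β} {g : α → γ} (h : PT f) (e : ∀ a, enc (f a) = enc (g a)) : PT g :=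
  PTR.congr h e

@[fun_prop] theorem id' : PT fun a : α => a := PTR.refl _

@[fun_prop] theorem const (b : β) : PT fun _ : α => b := PTR.const _ _

@[fun_prop] theorem comp {f : β → γ} {g : α → β} (hf : PT f) (hg : PT g) :
    PT fun a => f (g a) := PTR.trans hg (PTR.restrict hf g)

@[fun_prop] theorem pair {f : α → β} {g : α → γ} (hf : PT f) (hg : PT g) :
    PT fun a => (f a, g a) := PTR.pair hf hg

@[fun_prop] theorem fst {f : α → β × γ} (hf : PT f) : PT fun a => (f a).1 :=
  (PTR.fstR.raw hf).congr fun a => by simp [enc_prod]

@[fun_prop] theorem snd {f : α → β × γ} (hf : PT f) : PT fun a => (f a).2 :=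
  (PTR.sndR.raw hf).congr fun a => by simp [enc_prod]

@[fun_prop] theorem cond {c : α → Bool} {f g : α → β} (hc : PT c) (hf : PT f) (hg : PT g) :
    PT fun a => bif c a then f a else g a :=
  (PTR.cond hc hf hg).congr fun a => by beta_reduce; cases c a <;> rfl

@[fun_prop] theorem ite {c : α → Prop} [DecidablePred c] {f g : α → β} (hc : PT fun a => decide (c a))
    (hf : PT f) (hg : PT g) : PT fun a => if c a then f a else g a :=
  (cond hc hf hg).of_eq fun a => by by_cases h : c a <;> simp [h]

theorem toRaw {f : α → β} (hf : PT f) : PT fun a => Raw.mk (enc (f a)) := hf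

@[fun_prop] theorem not {f : α → Bool} (hf : PT f) : PT fun a => !f a :=
  (cond hf (const false) (const true)).of_eq fun a => by cases f a <;> rfl

@[fun_prop] theorem and {f g : α → Bool} (hf : PT f) (hg : PT g) : PT fun a => f a && g a :=
  (cond hf hg (const false)).of_eq fun a => by cases f a <;> rfl

@[fun_prop] theorem or {f g : α → Bool} (hf : PT f) (hg : PT g) : PT fun a => f a || g a :=
  (cond hf (const true) hg).of_eq fun a => by cases f a <;> rfl

@[fun_prop] theorem xor {f g : α → Bool} (hf : PT f) (hg : PT g) : PT fun a => (f a ^^ g a) :=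
  (cond hf hg.not hg).of_eq fun a => by cases f a <;> simp

/-! #### Iteration -/

/-- Iteration with a raw counter. -/
theorem iterRaw {step : σ → σ} (hs : PT step) {N : α → β} {s₀ : α → σ} (hN : PT N) (h₀ : PT s₀)
    {B : α → ℕ} (hB : PB B) (hsz : ∀ a i, i ≤ size (N a) → size (step^[i] (s₀ a)) ≤ B a) :
    PT fun a => step^[size (N a)] (s₀ a) :=
  PTR.iter (es := enc) hs hN h₀ hB hsz

omit [Enc α] [Enc σ] in
theorem iterate_prod (step : α → σ → σ) (a : α) (s : σ) (i : ℕ) :
    (fun p : α × σ => (p.1, step p.1 p.2))^[i] (a, s) = (a, (step a)^[i] s) := by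
  induction i generalizing s with
  | zero => rfl
  | succ i ih => simp [ih]

/-- Bounded iteration with a context; `n` is a unary number. -/
theorem iterate {step : α → σ → σ} (hs : PT fun p : α × σ => step p.1 p.2) {n : α → ℕ}
    {s₀ : α → σ} (hn : PT n) (h₀ : PT s₀) {B : α → ℕ} (hB : PB B)
    (hsz : ∀ a i, i ≤ n a → size ((step a)^[i] (s₀ a)) ≤ B a) :
    PT fun a => (step a)^[n a] (s₀ a) := by
  have h := iterRaw (step := fun p : α × σ => (p.1, step p.1 p.2)) (pair (fst id') hs) hn
    (pair id' h₀) (B := fun a => 2 * size a + 1 + B a)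
    ((((PB.const 2).mul (PB.size id')).add (PB.const 1)).add hB) (by
      intro a i hi
      rw [iterate_prod, size_prod]
      have := hsz a i (by simpa using hi)
      omega)
  exact h.snd.of_eq fun a => by rw [iterate_prod, size_nat]

/-! #### Unary numbers -/

@[fun_prop] theorem succ {f : α → ℕ} (hf : PT f) : PT fun a => (f a).succ :=
  ((PTR.cons true).raw hf).congr fun _ => rfl

theorem add_one {f : α → ℕ} (hf : PT f) : PT fun a => f a + 1 := succ hf

@[fun_prop] theorem pred {f : α → ℕ} (hf : PT f) : PT fun a => (f a).pred :=
  (PTR.tail.raw hf).congr fun a => by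
    beta_reduce; cases f a <;> simp [enc_nat, List.replicate_succ]

theorem iterate_succ_eq (i n : ℕ) : Nat.succ^[i] n = n + i := by
  induction i generalizing n with
  | zero => rfl
  | succ i ih => simp [ih]; omega

@[fun_prop] theorem sizeOf' {f : α → β} (hf : PT f) : PT fun a => size (f a) :=
  (iterRaw (step := Nat.succ) (succ id') hf (const 0) (PB.size hf) (by
    intro a i hi; simpa [iterate_succ_eq] using hi)).of_eq fun a => by simp [iterate_succ_eq]

@[fun_prop] theorem nat_add {f g : α → ℕ} (hf : PT f) (hg : PT g) : PT fun a => f a + g a :=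
  (iterate (step := fun _ => Nat.succ) (succ (snd id')) hg hf ((PB.of_PT hf).add (PB.of_PT hg))
    (by intro a i hi; simpa [iterate_succ_eq] using hi)).of_eq fun a => by simp [iterate_succ_eq]

theorem iterate_pred_eq (i n : ℕ) : Nat.pred^[i] n = n - i := by
  induction i generalizing n with
  | zero => rfl
  | succ i ih => simp [ih]; omega

@[fun_prop] theorem nat_sub {f g : α → ℕ} (hf : PT f) (hg : PT g) : PT fun a => f a - g a :=
  (iterate (step := fun _ => Nat.pred) (pred (snd id')) hg hf (PB.of_PT hf)
    (by intro a i hi; simp [iterate_pred_eq])).of_eq fun a => by simp [iterate_pred_eq]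

theorem iterate_add_eq (k i n : ℕ) : (fun s => s + k)^[i] n = n + k * i := by
  induction i generalizing n with
  | zero => rfl
  | succ i ih => simp; ring

@[fun_prop] theorem nat_mul {f g : α → ℕ} (hf : PT f) (hg : PT g) : PT fun a => f a * g a :=
  (iterate (step := fun a s => s + f a) (nat_add (snd id') (hf.comp (fst id'))) hg (const 0)
    ((PB.of_PT hf).mul (PB.of_PT hg))
    (by intro a i hi; simpa [iterate_add_eq] using Nat.mul_le_mul_left _ hi)).of_eq fun a => by
      simp [iterate_add_eq]

@[fun_prop] theorem nat_pow_const {f : α → ℕ} (hf : PT f) (k : ℕ) : PT fun a => f a ^ k := by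
  induction k with
  | zero => simpa using const 1
  | succ k ih => simpa [pow_succ] using nat_mul ih hf

theorem nat_eq_zero {f : α → ℕ} (hf : PT f) : PT fun a => decide (f a = 0) :=
  ((PTR.headTest Option.isNone).raw hf).congr fun a => by
    beta_reduce; cases f a <;> simp [enc_nat, enc_bool, List.replicate_succ]

@[fun_prop] theorem nat_le {f g : α → ℕ} (hf : PT f) (hg : PT g) : PT fun a => decide (f a ≤ g a) :=
  (nat_eq_zero (nat_sub hf hg)).of_eq fun a => by simp [Nat.sub_eq_zero_iff_le]

@[fun_prop] theorem nat_lt {f g : α → ℕ} (hf : PT f) (hg : PT g) : PT fun a => decide (f a < g a) :=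
  (nat_le (succ hf) hg).of_eq fun a => by simp

@[fun_prop] theorem nat_eq {f g : α → ℕ} (hf : PT f) (hg : PT g) : PT fun a => decide (f a = g a) :=
  ((nat_le hf hg).and (nat_le hg hf)).of_eq fun a => by
    rw [← Bool.decide_and]; simp [le_antisymm_iff]

@[fun_prop] theorem decide_not {p : α → Prop} [DecidablePred p] (h : PT fun a => decide (p a)) :
    PT fun a => decide (¬ p a) := h.not.of_eq fun a => by simp

@[fun_prop] theorem decide_and {p q : α → Prop} [DecidablePred p] [DecidablePred q]
    (h : PT fun a => decide (p a)) (h' : PT fun a => decide (q a)) :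
    PT fun a => decide (p a ∧ q a) := (h.and h').of_eq fun a => by simp

@[fun_prop] theorem decide_or {p q : α → Prop} [DecidablePred p] [DecidablePred q]
    (h : PT fun a => decide (p a)) (h' : PT fun a => decide (q a)) :
    PT fun a => decide (p a ∨ q a) := (h.or h').of_eq fun a => by simp

@[fun_prop] theorem decide_eq_true {f : α → Bool} (h : PT f) : PT fun a => decide (f a = true) :=
  h.of_eq fun a => by simp

@[fun_prop] theorem nat_ne {f g : α → ℕ} (hf : PT f) (hg : PT g) :
    PT fun a => decide (f a ≠ g a) := decide_not (nat_eq hf hg)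

@[fun_prop] theorem nat_ge {f g : α → ℕ} (hf : PT f) (hg : PT g) :
    PT fun a => decide (f a ≥ g a) := nat_le hg hf

@[fun_prop] theorem nat_gt {f g : α → ℕ} (hf : PT f) (hg : PT g) :
    PT fun a => decide (f a > g a) := nat_lt hg hf

@[fun_prop] theorem bool_eq {f g : α → Bool} (hf : PT f) (hg : PT g) :
    PT fun a => decide (f a = g a) :=
  (hf.xor hg).not.of_eq fun a => by cases f a <;> cases g a <;> rfl

@[fun_prop] theorem toNat {f : α → Bool} (hf : PT f) : PT fun a => (f a).toNat :=
  (cond hf (const 1) (const 0)).of_eq fun a => by cases f a <;> rfl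

/-- Any function of one bit. -/
theorem ofBool (φ : Bool → β) {f : α → Bool} (hf : PT f) : PT fun a => φ (f a) :=
  (cond hf (const (φ true)) (const (φ false))).of_eq fun a => by cases f a <;> rfl

/-! #### Lists -/

@[fun_prop] theorem cons {f : α → β} {g : α → List β} (hf : PT f) (hg : PT g) :
    PT fun a => f a :: g a := PTR.pair hf hg

@[fun_prop] theorem tail {g : α → List β} (hg : PT g) : PT fun a => (g a).tail :=
  (PTR.sndR.raw hg).congr fun a => by beta_reduce; cases g a <;> simp [enc_cons, enc_nil]

@[fun_prop] theorem isEmpty {g : α → List β} (hg : PT g) : PT fun a => (g a).isEmpty :=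
  ((PTR.headTest Option.isNone).raw hg).congr fun a => by
    beta_reduce
    rcases g a with _ | ⟨b, l⟩
    · rfl
    · rw [enc_cons]; cases enc b <;> rfl

@[fun_prop] theorem headD {g : α → List β} {d : α → β} (hg : PT g) (hd : PT d) :
    PT fun a => (g a).headD (d a) :=
  (PTR.cond hg.isEmpty hd (PTR.fstR.raw hg)).congr fun a => by
    beta_reduce; cases g a <;> simp [enc_cons]

/-- Case analysis on a list. -/
theorem casesList {g : α → List β} {f₁ : α → γ} {f₂ : α → β → List β → γ} (hg : PT g)
    (h₁ : PT f₁) (h₂ : PT fun p : α × β × List β => f₂ p.1 p.2.1 p.2.2) :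
    PT fun a => (g a).casesOn (motive := fun _ => γ) (f₁ a) (f₂ a) := by
  classical
  by_cases hb : Nonempty β
  · obtain ⟨b⟩ := hb
    have h₃ : PT fun a => f₂ a ((g a).headD b) (g a).tail :=
      h₂.comp (pair id' (pair (headD hg (const b)) (tail hg)))
    exact (cond hg.isEmpty h₁ h₃).of_eq fun a => by cases g a <;> rfl
  · refine h₁.of_eq fun a => ?_
    rcases g a with _ | ⟨b, l⟩
    · rfl
    · exact absurd ⟨b⟩ hb

/-- One step of a left fold. -/
def foldStep (f : σ → β → σ) (p : List β × σ) : List β × σ :=
  p.1.casesOn (motive := fun _ => List β × σ) p fun b l => (l, f p.2 b)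

omit [Enc β] [Enc σ] in
theorem foldStep_iterate (f : σ → β → σ) (i : ℕ) (l : List β) (s : σ) :
    (foldStep f)^[i] (l, s) = (l.drop i, (l.take i).foldl f s) := by
  induction i generalizing l s with
  | zero => rfl
  | succ i ih =>
    cases l with
    | nil => rw [iterate_succ_apply]; simpa [foldStep] using ih [] s
    | cons b l => rw [iterate_succ_apply]; simpa [foldStep] using ih l (f s b)

/-- Left fold with an explicit bound on all intermediate states. -/
theorem foldl {f : α → σ → β → σ} (hf : PT fun p : α × σ × β => f p.1 p.2.1 p.2.2)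
    {l : α → List β} {s₀ : α → σ} (hl : PT l) (h₀ : PT s₀) {B : α → ℕ} (hB : PB B)
    (hsz : ∀ a i, size (((l a).take i).foldl (f a) (s₀ a)) ≤ B a) :
    PT fun a => (l a).foldl (f a) (s₀ a) := by
  have hstep : PT fun p : α × (List β × σ) => (fun a => foldStep (f a)) p.1 p.2 :=
    casesList (fst (snd id')) (snd id')
      (f₂ := fun (p : α × (List β × σ)) b l => (l, f p.1 p.2.2 b))
      (pair (snd (snd id')) (hf.comp (pair (fst (fst id'))
        (pair (snd (snd (fst id'))) (fst (snd id'))))))
  have h := iterate (step := fun a => foldStep (f a)) hstep hl.sizeOf' (pair hl h₀) (B := fun a => 2 * size (l a) + 1 + B a)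
    ((((PB.const 2).mul (PB.size hl)).add (PB.const 1)).add hB) (by
      intro a i _
      rw [foldStep_iterate, size_prod]
      have := hsz a i
      have := size_le_of_sublist (List.drop_sublist i (l a))
      omega)
  exact h.snd.of_eq fun a => by
    rw [foldStep_iterate, List.take_of_length_le (length_le_size _)]

omit [Enc α] [Enc β] in
theorem size_foldl_le {f : σ → β → σ} {m : ℕ} (l : List β)
    (h : ∀ s, ∀ b ∈ l, size (f s b) ≤ size s + m) (s : σ) :
    size (l.foldl f s) ≤ size s + l.length * m := by
  induction l generalizing s with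
  | nil => simp
  | cons b l ih =>
    have h₁ := ih (fun s b hb => h s b (List.mem_cons_of_mem _ hb)) (f s b)
    have h₂ := h s b List.mem_cons_self
    simp only [List.foldl_cons, List.length_cons]; nlinarith

/-- Left fold whose state grows additively. -/
theorem foldl_growth {f : α → σ → β → σ} (hf : PT fun p : α × σ × β => f p.1 p.2.1 p.2.2)
    {l : α → List β} {s₀ : α → σ} (hl : PT l) (h₀ : PT s₀) {G : α × β → ℕ} (hG : PB G)
    (hsz : ∀ a s b, size (f a s b) ≤ size s + G (a, b)) :
    PT fun a => (l a).foldl (f a) (s₀ a) := by
  obtain ⟨p, hp⟩ := hG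
  have hB : PB fun a => size (s₀ a) + (l a).length * p.eval (2 * size a + 1 + size (l a)) :=
    (PB.size h₀).add ((PB.length hl).mul
      (PBy.eval p ((((PB.const 2).mul (PB.size id')).add (PB.const 1)).add (PB.size hl))))
  refine foldl hf hl h₀ hB fun a i => ?_
  refine (size_foldl_le (m := p.eval (2 * size a + 1 + size (l a))) _ ?_ _).trans ?_
  · intro s b hb
    refine (hsz a s b).trans (Nat.add_le_add_left ((hp _).trans (poly_eval_mono p ?_)) _)
    have := size_le_of_mem (List.mem_of_mem_take hb)
    rw [size_prod]; omega
  · exact Nat.add_le_add_left (Nat.mul_le_mul_right _ (by simp)) _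

omit [Enc α] [Enc β] in
theorem foldl_cons_map (f : β → α) (l : List β) (g : List α) :
    l.foldl (fun g d => f d :: g) g = (l.map f).reverse ++ g := by
  induction l generalizing g with
  | nil => rfl
  | cons d l ih => simp [ih]

theorem revAppend {f g : α → List β} (hf : PT f) (hg : PT g) :
    PT fun a => (f a).reverse ++ g a :=
  (foldl_growth (f := fun _ s b => b :: s) (cons (snd (snd id')) (fst (snd id'))) hf hg
    (G := fun p => 2 * size p.2 + 1) (((PB.const 2).mul (PB.size (snd id'))).add (PB.const 1))
    (by intro a s b; simp; omega)).of_eq fun a => by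
      simp

@[fun_prop] theorem reverse {f : α → List β} (hf : PT f) : PT fun a => (f a).reverse :=
  (revAppend hf (const [])).of_eq fun a => by simp

@[fun_prop] theorem append {f g : α → List β} (hf : PT f) (hg : PT g) :
    PT fun a => f a ++ g a := (revAppend hf.reverse hg).of_eq fun a => by simp

@[fun_prop] theorem map {f : α → β → γ} (hf : PT fun p : α × β => f p.1 p.2) {l : α → List β}
    (hl : PT l) : PT fun a => (l a).map (f a) := by
  have h₁ : PT fun p : α × List γ × β => f p.1 p.2.2 := hf.comp (pair (fst id') (snd (snd id')))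
  exact (foldl_growth (f := fun a s b => f a b :: s) (cons h₁ (fst (snd id'))) hl (const [])
    (G := fun p => 2 * size (f p.1 p.2) + 1) (((PB.const 2).mul (PB.size hf)).add (PB.const 1))
    (by intro a s b; simp; omega)).reverse.of_eq fun a => by simp

@[fun_prop] theorem length {l : α → List β} (hl : PT l) : PT fun a => (l a).length :=
  (foldl_growth (f := fun _ (s : ℕ) _ => s + 1) (add_one (fst (snd id'))) hl (const 0)
    (G := fun _ => 1) (PB.const 1) (by intro a s b; simp)).of_eq fun a => by
      have : ∀ (l : List β) (s : ℕ), l.foldl (fun s _ => s + 1) s = s + l.length := by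
        intro l; induction l with
        | nil => simp
        | cons b l ih => intro s; simp [ih]; omega
      simp [this]

@[fun_prop] theorem flatten {l : α → List (List β)} (hl : PT l) : PT fun a => (l a).flatten :=
  (foldl_growth (f := fun _ (s : List β) b => s ++ b) (append (fst (snd id')) (snd (snd id'))) hl
    (const []) (G := fun p => size p.2) (PB.size (snd id')) (by intro a s b; simp)).of_eq
    fun a => by
      have : ∀ (l : List (List β)) (s : List β), l.foldl (fun s b => s ++ b) s = s ++ l.flatten := by
        intro l; induction l with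
        | nil => simp
        | cons b l ih => intro s; simp [ih]
      simp [this]

@[fun_prop] theorem flatMap {f : α → β → List γ} (hf : PT fun p : α × β => f p.1 p.2)
    {l : α → List β} (hl : PT l) : PT fun a => (l a).flatMap (f a) :=
  (map hf hl).flatten.of_eq fun a => by simp [List.flatMap]

@[fun_prop] theorem filter {f : α → β → Bool} (hf : PT fun p : α × β => f p.1 p.2)
    {l : α → List β} (hl : PT l) : PT fun a => (l a).filter (f a) :=
  (flatMap (f := fun a b => bif f a b then [b] else [])
    (cond hf (cons (snd id') (const [])) (const [])) hl).of_eq fun a => by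
      induction l a with
      | nil => rfl
      | cons b l ih => cases h : f a b <;> simp [h, ih]

theorem range_iterate (i : ℕ) :
    (fun p : ℕ × List ℕ => (p.1 + 1, p.2 ++ [p.1]))^[i] (0, []) = (i, List.range i) := by
  induction i with
  | zero => rfl
  | succ i ih => rw [iterate_succ_apply', ih, List.range_succ]

@[fun_prop] theorem range {n : α → ℕ} (hn : PT n) : PT fun a => List.range (n a) :=
  (iterate (step := fun _ (p : ℕ × List ℕ) => (p.1 + 1, p.2 ++ [p.1]))
    (pair (add_one (fst (snd id'))) (append (snd (snd id')) (cons (fst (snd id')) (const []))))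
    hn (const (0, [])) (B := fun a => 2 * n a + 1 + n a * (2 * n a + 1))
    ((((PB.const 2).mul (PB.of_PT hn)).add (PB.const 1)).add ((PB.of_PT hn).mul
      (((PB.const 2).mul (PB.of_PT hn)).add (PB.const 1)))) (by
      intro a i hi
      rw [range_iterate, size_prod]
      have := size_list_le (l := List.range i) (m := n a) (by
        intro x hx; simp at hx ⊢; omega)
      simp only [List.length_range, size_nat] at this ⊢
      nlinarith)).snd.of_eq fun a => by rw [range_iterate]

@[fun_prop] theorem replicate {n : α → ℕ} {b : α → β} (hn : PT n) (hb : PT b) :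
    PT fun a => List.replicate (n a) (b a) :=
  (map (f := fun a _ => b a) (hb.comp (fst id')) hn.range).of_eq fun a => by simp

omit [Enc β] in
theorem iterate_tail_eq (i : ℕ) (l : List β) : List.tail^[i] l = l.drop i := by
  induction i generalizing l with
  | zero => rfl
  | succ i ih => simp [ih]

@[fun_prop] theorem drop {n : α → ℕ} {l : α → List β} (hn : PT n) (hl : PT l) :
    PT fun a => (l a).drop (n a) :=
  (iterate (step := fun _ => List.tail) (tail (snd id')) hn hl (PB.size hl) (by
    intro a i _
    rw [iterate_tail_eq]
    exact size_le_of_sublist (List.drop_sublist _ _))).of_eq fun a => iterate_tail_eq _ _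

@[fun_prop] theorem take {n : α → ℕ} {l : α → List β} (hn : PT n) (hl : PT l) :
    PT fun a => (l a).take (n a) :=
  (drop (nat_sub hl.length hn) hl.reverse).reverse.of_eq fun a => by
    rw [List.drop_reverse, List.reverse_reverse]
    by_cases h : n a ≤ (l a).length
    · congr 1; omega
    · rw [List.take_of_length_le (by omega), List.take_of_length_le (by omega)]

@[fun_prop] theorem getD {n : α → ℕ} {l : α → List β} {d : α → β} (hl : PT l) (hn : PT n)
    (hd : PT d) : PT fun a => (l a).getD (n a) (d a) :=
  (headD (drop hn hl) hd).of_eq fun a => by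
    simp [List.headD_eq_head?_getD, List.head?_drop]

@[fun_prop] theorem nat_sum {l : α → List ℕ} (hl : PT l) : PT fun a => (l a).sum :=
  (foldl_growth (f := fun _ (s : ℕ) b => s + b) (nat_add (fst (snd id')) (snd (snd id'))) hl
    (const 0) (G := fun p => size p.2) (PB.size (snd id')) (by intro a s b; simp)).of_eq
    fun a => by rw [List.sum_eq_foldl]

@[fun_prop] theorem all {f : α → β → Bool} (hf : PT fun p : α × β => f p.1 p.2)
    {l : α → List β} (hl : PT l) : PT fun a => (l a).all (f a) :=
  (filter (f := fun a b => !f a b) hf.not hl).isEmpty.of_eq fun a => by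
    induction l a with
    | nil => rfl
    | cons b l ih => cases h : f a b <;> simp_all

@[fun_prop] theorem any {f : α → β → Bool} (hf : PT fun p : α × β => f p.1 p.2)
    {l : α → List β} (hl : PT l) : PT fun a => (l a).any (f a) :=
  (filter hf hl).isEmpty.not.of_eq fun a => by
    induction l a with
    | nil => rfl
    | cons b l ih => cases h : f a b <;> simp_all

theorem divmod_iterate (m i : ℕ) (hm : 0 < m) :
    (fun p : ℕ × ℕ => if p.2 + 1 = m then (p.1 + 1, 0) else (p.1, p.2 + 1))^[i] (0, 0) =
      (i / m, i % m) := by
  induction i with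
  | zero => simp
  | succ i ih =>
    rw [iterate_succ_apply', ih]
    have h₁ := Nat.div_add_mod i m
    have h₂ := Nat.mod_lt i hm
    by_cases h : i % m + 1 = m
    · rw [if_pos h]
      have e : i + 1 = m * (i / m + 1) := by rw [mul_add]; omega
      rw [e]; simp [Nat.mul_div_cancel_left _ hm]
    · rw [if_neg h]
      have e : i + 1 = (i % m + 1) + m * (i / m) := by omega
      have h₃ : i % m + 1 < m := by omega
      rw [e, Nat.add_mul_div_left _ _ hm, Nat.add_mul_mod_self_left, Nat.div_eq_of_lt h₃,
        Nat.mod_eq_of_lt h₃]
      simp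

theorem nat_divmod {f g : α → ℕ} (hf : PT f) (hg : PT g) : PT fun a => (f a / g a, f a % g a) := by
  have h := iterate
    (step := fun a (p : ℕ × ℕ) => if p.2 + 1 = g a + 1 - 1 + (1 - g a) then (p.1 + 1, 0)
      else (p.1, p.2 + 1))
    (ite (nat_eq (add_one (snd (snd id'))) ((nat_add (nat_sub (add_one hg) (const 1))
      (nat_sub (const 1) hg)).comp (fst id')))
      (pair (add_one (fst (snd id'))) (const 0)) (pair (fst (snd id')) (add_one (snd (snd id')))))
    hf (const (0, 0)) (B := fun a => 3 * f a + 1)
    (((PB.const 3).mul (PB.of_PT hf)).add (PB.const 1)) (by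
      intro a i hi
      rw [divmod_iterate _ _ (by omega), size_prod]
      have := Nat.div_le_self i (g a + 1 - 1 + (1 - g a))
      have := Nat.mod_le i (g a + 1 - 1 + (1 - g a))
      simp only [size_nat]; omega)
  refine (ite (nat_eq_zero hg) (pair (const 0) hf) h).of_eq fun a => ?_
  by_cases h0 : g a = 0
  · simp [h0]
  · rw [if_neg h0, divmod_iterate _ _ (by omega)]
    have : g a + 1 - 1 + (1 - g a) = g a := by omega
    rw [this]

@[fun_prop] theorem nat_div {f g : α → ℕ} (hf : PT f) (hg : PT g) : PT fun a => f a / g a :=
  (nat_divmod hf hg).fst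

@[fun_prop] theorem nat_mod {f g : α → ℕ} (hf : PT f) (hg : PT g) : PT fun a => f a % g a :=
  (nat_divmod hf hg).snd

@[fun_prop] theorem nat_min {f g : α → ℕ} (hf : PT f) (hg : PT g) : PT fun a => min (f a) (g a) :=
  (nat_sub hf (nat_sub hf hg)).of_eq fun a => by omega

@[fun_prop] theorem nat_max {f g : α → ℕ} (hf : PT f) (hg : PT g) : PT fun a => max (f a) (g a) :=
  (nat_add hg (nat_sub hf hg)).of_eq fun a => by omega

/-! #### Raw strings versus lists of bits -/

theorem rawCons {d : α → Bool} {r : α → Raw} (hd : PT d) (hr : PT r) :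
    PT fun a => Raw.mk (d a :: (r a).bits) :=
  (PTR.cond hd ((PTR.cons true).raw hr) ((PTR.cons false).raw hr)).congr fun a => by
    beta_reduce; cases d a <;> rfl

theorem rawTail {r : α → Raw} (hr : PT r) : PT fun a => Raw.mk (r a).bits.tail :=
  PTR.tail.raw hr

theorem rawHead (φ : Option Bool → Bool) {r : α → Raw} (hr : PT r) :
    PT fun a => φ (r a).bits.head? := (PTR.headTest φ).raw hr

theorem rawMk {l : α → List Bool} (hl : PT l) : PT fun a => Raw.mk (l a) :=
  (foldl_growth (f := fun _ (s : Raw) b => Raw.mk (b :: s.bits))
    (rawCons (snd (snd id')) (fst (snd id'))) hl.reverse (const (Raw.mk []))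
    (G := fun _ => 1) (PB.const 1) (by intro a s b; simp)).of_eq fun a => by
      have : ∀ (l : List Bool) (s : Raw),
          l.foldl (fun s b => Raw.mk (b :: s.bits)) s = Raw.mk (l.reverse ++ s.bits) := by
        intro l; induction l with
        | nil => simp
        | cons b l ih => intro s; simp [ih]
      simp [this]

theorem rawBits_iterate (i : ℕ) (x acc : List Bool) (h : i ≤ x.length) :
    (fun p : Raw × List Bool => (Raw.mk p.1.bits.tail, (p.1.bits.head?.getD false) :: p.2))^[i]
      (Raw.mk x, acc) = (Raw.mk (x.drop i), (x.take i).reverse ++ acc) := by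
  induction i generalizing x acc with
  | zero => rfl
  | succ i ih =>
    cases x with
    | nil => simp at h
    | cons b x => rw [iterate_succ_apply]; simpa using ih x (b :: acc) (by simpa using h)

theorem rawBits {r : α → Raw} (hr : PT r) : PT fun a => (r a).bits :=
  (iterate (step := fun _ (p : Raw × List Bool) =>
      (Raw.mk p.1.bits.tail, (p.1.bits.head?.getD false) :: p.2))
    (pair (rawTail (fst (snd id'))) (cons (rawHead (·.getD false) (fst (snd id'))) (snd (snd id'))))
    hr.sizeOf' (pair hr (const [])) (B := fun a => 5 * size (r a) + 1)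
    (((PB.const 5).mul (PB.size hr)).add (PB.const 1)) (by
      intro a i hi
      rw [show (r a, []) = (Raw.mk (r a).bits, []) from rfl, rawBits_iterate i (r a).bits [] hi]
      simp [size_list_bool] at hi ⊢; omega)).snd.reverse.of_eq fun a => by
      rw [show (r a, []) = (Raw.mk (r a).bits, []) from rfl, rawBits_iterate _ _ _ (by simp)]
      simp

/-- The code of a value, as a list of bits. -/
theorem encBits {f : α → β} (hf : PT f) : PT fun a => (enc (f a) : List Bool) :=
  rawBits hf.toRaw

end PT

end Crest.Agent.Lib.PolyTime
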